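import Vale.Agent.P119.END.Assemble
import Vale.Agent.P119.M.Live

/-!
# Q1 from the limit of the alive tuples (`AliveENN`) and the correctness of the M-paths (`PathENN`)
-/

open MeasureTheory Set Filter Topology
open scoped ENNReal

noncomputable section

namespace Vale.Agent.P119.END

open GC M

/-- The particle `z` of `c` is alive and not in a collision at time `t`, in the M-world of
depth `L`. -/
def AL (Φ : E3 → ℝ) (L : ℕ) (ε : ℝ) (c : Conf Ph) (t : ℝ) (z : Ph) : Prop :=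
  ∃ T : CTree, stat Φ ε L (world (pts c : Set Ph)) (src z) t = some T ∧ CTree.ext Φ ε T ≤ t

/-- The M-state of `z`. -/
def MY (Φ : E3 → ℝ) (L : ℕ) (ε : ℝ) (c : Conf Ph) (t : ℝ) (z : Ph) : Ph :=
  mpos Φ ε L (world (pts c : Set Ph)) (src z) t

theorem AL.exists {Φ : E3 → ℝ} {L : ℕ} {ε : ℝ} {c : Conf Ph} {t : ℝ} {z : Ph}
    (h : AL Φ L ε c t z) : ∃ T : CTree, stat Φ ε L (world (pts c : Set Ph)) (src z) t = some T ∧
      CTree.ext Φ ε T ≤ t ∧ MY Φ L ε c t z = CTree.st Φ ε T t := by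
  obtain ⟨T, h1, h2⟩ := h
  exact ⟨T, h1, h2, mpos_eq h1⟩

/-- The densities of the truncated kinetic gases.  The M-world of depth `L` (leaves have depth
`0`) has the density `K.u (L + 1)` (leaves have depth `1`). -/
def uK {Φ : E3 → ℝ} {hΦ : IsPotential Φ} {f₀ : Ph → ℝ}
    {m₀ : Measurable fun p : E3 × E3 => K1.f0hat f₀ p.1 p.2} {T : ℝ} {f : ℝ → Ph → ℝ}
    (K : KE.KinFamily hΦ f₀ m₀ T f) (L : ℕ) (t : ℝ) (z : Ph) : ℝ≥0∞ :=
  (K.u (L + 1)).1 t z.1 z.2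

/-- **Q1 from the two statements about the M-world.** -/
theorem questionOne_of_alive
    (H : ∀ (Φ : E3 → ℝ) (β T κ : ℝ) (f₀ : Ph → ℝ) (f : ℝ → Ph → ℝ) (hΦ : IsPotential Φ),
      IsStable Φ → 0 < β → ∀ (hT : 0 < T), IsDatum β f₀ → ∀ (h : RegSol Φ β f₀ T f),
      GoodDatum f₀ κ → ∀ K : KE.KinFamily hΦ f₀ (K1.measurable_f0hat hT h) T f,
        (∀ s, AliveENN f₀ T (uK K) (AL Φ) (MY Φ) s) ∧ PathENN Φ f₀ T (AL Φ) (MY Φ)) :
    Stmt.QuestionOne (E := E3) Bridge.lat := by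
  refine questionOne_of fun Φ β T f₀ f hΦ hst hβ hT hd h s => ?_
  obtain ⟨K⟩ := KE.exists_family hΦ hβ hT hd h
  obtain ⟨C, hC⟩ := h.bound
  have h0 : (0 : ℝ) ∈ Icc 0 T := ⟨le_rfl, hT.le⟩
  have hbd : ∀ x v : E3, Real.exp (2 * β * ‖v‖ ^ 2) * f₀ (x, v) ≤ max C 0 := by
    intro x v
    have := hC 0 h0 x v
    rw [h.init] at this
    exact this.trans (le_max_left _ _)
  have hgood : GoodDatum f₀ (kap β (max C 0)) := by
    have := goodDatum_free hβ hd (le_max_right C 0) hbd 0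
    have h0' : free f₀ 0 = f₀ := by
      funext z
      simp [free]
    rwa [h0'] at this
  obtain ⟨h1, h2⟩ := H Φ β T _ f₀ f hΦ hst hβ hT hd h hgood K
  exact lowerENN_of hΦ hgood (U := uK K) (fun δ hδ =>
    (tendsto_add_atTop_nat 1).eventually (K.prod_le (K1.jm_fhat h) s hδ)) (h1 s) h2

end Vale.Agent.P119.END
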