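import Vale.Agent.P119.END.Stop
import Vale.Agent.P119.END.Final
import Vale.Agent.P119.RB.Transfer

/-!
# Wrongly predicted particles are exposed
-/

open MeasureTheory Set Filter Topology
open scoped ENNReal

noncomputable section

namespace Vale.Agent.P119.END

open GC KE M RB

variable {f₀ : Ph → ℝ} {κ : ℝ} {Φ : E3 → ℝ} {T : ℝ}

/-- The exposed particles of a configuration. -/
def expo (hΦ : IsPotential Φ) {ε : ℝ} (hε : 0 < ε) (L : ℕ) (t : ℝ) (c : Conf Ph) : Finset Ph := by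
  classical
  exact (pts c).filter fun z => (Y Φ ε L hΦ hε).Exp (fworld (pts c)) (src z) t

theorem mem_expo {hΦ : IsPotential Φ} {ε : ℝ} {hε : 0 < ε} {L : ℕ} {t : ℝ} {c : Conf Ph} {z : Ph} :
    z ∈ expo hΦ hε L t c ↔ z ∈ pts c ∧ (Y Φ ε L hΦ hε).Exp (fworld (pts c)) (src z) t := by
  classical
  simp [expo]

theorem excl_pts {ε : ℝ} {c : Conf Ph} (hc : c.2 ∈ excl ε c.1) : RW.Excl ε (pts c) := by
  intro z hz z' hz' hne
  obtain ⟨i, rfl⟩ := mem_pts.1 hz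
  obtain ⟨j, rfl⟩ := mem_pts.1 hz'
  exact hc i j fun h => hne (by rw [h])

theorem wrong_subset_expo (hΦ : IsPotential Φ) {ε : ℝ} (hε : 0 < ε) (L : ℕ) {t : ℝ} (ht : 0 ≤ t)
    {c : Conf Ph} (hc : c.2 ∈ excl ε c.1) :
    wrong Φ ε t (fun c => AL Φ L ε c t) (fun c => MY Φ L ε c t) c ⊆ expo hΦ hε L t c := by
  intro z hz
  obtain ⟨h1, -, h2⟩ := mem_wrong.1 hz
  refine mem_expo.2 ⟨h1, ?_⟩
  by_contra hne
  refine h2 ?_
  have hmem : src z ∈ fworld (pts c) := by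
    rw [← Finset.mem_coe, coe_fworld]
    exact ⟨z, h1, rfl⟩
  have h3 := Y_real hΦ hε (L := L) (W := fworld (pts c)) (a := src z) (s := t) (t := t) ?_ hmem hne
    le_rfl
  · rw [XR_world hΦ hε (excl_pts hc) ht h1] at h3
    rw [h3, MY, coe_fworld]
  · intro a ha
    rw [← Finset.mem_coe, coe_fworld] at ha
    obtain ⟨y, -, rfl⟩ := ha
    exact le_rfl

/-- **Smallness of the stopped quantities implies `PathENN`** (final form for the feedback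
block). -/
theorem pathENN_of_expo (hΦ : IsPotential Φ) (h : GoodDatum f₀ κ)
    {G : ℕ → ℝ → ℝ → Conf Ph → ℝ≥0∞} {K : ℝ} (hK : 1 ≤ K)
    (p : ℕ) {cr : ℕ → ℝ} (hcr0 : ∀ L, 0 ≤ cr L) (hcr : SuperExp cr) {C₀ : ℝ} (hC₀ : 0 ≤ C₀)
    (hG : ∀ᶠ L in atTop, ∀ ρ : ℝ, 0 < ρ → ∀ᶠ ε in 𝓝[>] (0 : ℝ), ∀ t ∈ Icc 0 T,
      (ENNReal.ofReal (mu ε))⁻¹ * ∫⁻ c, G L ε t c ∂(PP f₀ ε) ≤
        ENNReal.ofReal (C₀ * (K ^ L * cr L) + ρ))
    (hS : ∀ᶠ L in atTop, ∀ ε : ℝ, ∀ hε : 0 < ε, ε < 1 → ∀ t ∈ Icc 0 T, ∀ c : Conf Ph,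
      c.2 ∈ excl ε c.1 → ((expo hΦ hε L t c).card : ℝ≥0∞) ≤ G L ε t c ∨
        ENNReal.ofReal (thr K p L * mu ε) ≤ G L ε t c) : PathENN Φ f₀ T (AL Φ) (MY Φ) := by
  refine pathENN_of_stop h hK p hcr0 hcr hC₀ hG ?_
  filter_upwards [hS] with L hSL
  filter_upwards [self_mem_nhdsWithin, Ioo_mem_nhdsGT (show (0 : ℝ) < 1 by norm_num)]
    with ε hε hε1 t ht
  filter_upwards [ae_excl f₀ ε] with c hc
  rcases hSL ε hε hε1.2 t ht c hc with h1 | h1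
  · left
    exact (Nat.cast_le.2 (Finset.card_le_card (wrong_subset_expo hΦ hε L ht.1 hc))).trans h1
  · right
    exact h1

end Vale.Agent.P119.END
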