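import Vale.Agent.P119.END.AliveDom

/-!
# P119, `AliveENN`: continuity of the kinetic weights (`helper576`)

* `leg_lip`: the legs are Lipschitz in their last time;
* `tendsto_legW`, `tendsto_kk`, `tendsto_tw`.
-/

open MeasureTheory Set Filter Topology
open scoped ENNReal

noncomputable section

namespace Vale.Agent.P119.END

open GC M CTree KT ML KE

variable {Φ : E3 → ℝ} {ε : ℝ} {L s : ℕ} {t : ℝ} {f₀ : Ph → ℝ} {κ : ℝ} {hΦ : IsPotential Φ}
  {m₀ : Measurable fun p : E3 × E3 => K1.f0hat f₀ p.1 p.2} {T : ℝ}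
  {f : ℝ → Ph → ℝ} (K : KinFamily hΦ f₀ m₀ T f)

theorem u_le_gs {L : ℕ} (hL : K.L₀ ≤ L + 1) {t : ℝ} (ht : t ∈ Icc 0 T) (x v : E3) :
    (K.u (L + 1)).1 t x v ≤ gs K.M K.b v := by
  rw [← K.fix (L + 1) hL t ht x v]
  exact K.psi_le (L + 1) hL (L + 1) t ht x v

/-- The rate of the legs. -/
def lrate (v : E3) : ℝ := K.M * ((K1.collOf hΦ).R K.b * (1 + ‖v‖))

theorem dampArg_lip {L : ℕ} (hL : K.L₀ ≤ L + 1) {r t t' : ℝ} (hr : 0 ≤ r) (ht : t ≤ T)
    (l : Ph) :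
    (K1.collOf hΦ).dampArg (K.u (L + 1)).1 r t (l.1 + t • l.2) l.2 ≤
      (K1.collOf hΦ).dampArg (K.u (L + 1)).1 r t' (l.1 + t' • l.2) l.2 +
        ENNReal.ofReal (lrate K l.2) * ENNReal.ofReal (t - t') := by
  have e1 : ∀ t₁ : ℝ, (K1.collOf hΦ).dampArg (K.u (L + 1)).1 r t₁ (l.1 + t₁ • l.2) l.2 =
      ∫⁻ τ in Ioc r t₁, (K1.collOf hΦ).nu ((K.u (L + 1)).1 τ (l.1 + τ • l.2)) l.2 := by
    intro t₁
    unfold Coll.dampArg
    refine lintegral_congr fun τ => ?_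
    have e0 : l.1 + t₁ • l.2 - (t₁ - τ) • l.2 = l.1 + τ • l.2 := by module
    rw [e0]
  rw [e1, e1]
  have hsub : Ioc r t ⊆ Ioc r t' ∪ (Ioc t' t ∩ Ici 0) := by
    intro τ hτ
    rcases le_or_gt τ t' with h | h
    · exact Or.inl ⟨hτ.1, h⟩
    · exact Or.inr ⟨⟨h, hτ.2⟩, hr.trans hτ.1.le⟩
  refine (lintegral_mono_set hsub).trans ?_
  refine (lintegral_union_le _ _ _).trans (add_le_add le_rfl ?_)
  have h1 : ∀ τ ∈ Ioc t' t ∩ Ici 0, (K1.collOf hΦ).nu ((K.u (L + 1)).1 τ (l.1 + τ • l.2)) l.2 ≤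
      ENNReal.ofReal (lrate K l.2) := by
    intro τ hτ
    refine ((K1.collOf hΦ).nu_mono (fun w => ?_) l.2).trans
      ((K1.collOf hΦ).nu_gs K.M0 K.b0 l.2)
    exact u_le_gs K hL ⟨hτ.2, hτ.1.2.trans ht⟩ _ _
  calc ∫⁻ τ in Ioc t' t ∩ Ici 0, (K1.collOf hΦ).nu ((K.u (L + 1)).1 τ (l.1 + τ • l.2)) l.2
      ≤ ∫⁻ _ in Ioc t' t ∩ Ici 0, ENNReal.ofReal (lrate K l.2) :=
        setLIntegral_mono' (measurableSet_Ioc.inter measurableSet_Ici) h1
    _ = ENNReal.ofReal (lrate K l.2) * volume (Ioc t' t ∩ Ici 0) := by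
        rw [setLIntegral_const]
    _ ≤ ENNReal.ofReal (lrate K l.2) * ENNReal.ofReal (t - t') := by
        gcongr
        exact (measure_mono inter_subset_left).trans (by rw [Real.volume_Ioc])

theorem dampArg_mono {L : ℕ} {r t t' : ℝ} (htt : t' ≤ t) (l : Ph) :
    (K1.collOf hΦ).dampArg (K.u (L + 1)).1 r t' (l.1 + t' • l.2) l.2 ≤
      (K1.collOf hΦ).dampArg (K.u (L + 1)).1 r t (l.1 + t • l.2) l.2 := by
  have e1 : ∀ t₁ : ℝ, (K1.collOf hΦ).dampArg (K.u (L + 1)).1 r t₁ (l.1 + t₁ • l.2) l.2 =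
      ∫⁻ τ in Ioc r t₁, (K1.collOf hΦ).nu ((K.u (L + 1)).1 τ (l.1 + τ • l.2)) l.2 := by
    intro t₁
    unfold Coll.dampArg
    refine lintegral_congr fun τ => ?_
    have e0 : l.1 + t₁ • l.2 - (t₁ - τ) • l.2 = l.1 + τ • l.2 := by module
    rw [e0]
  rw [e1, e1]
  exact lintegral_mono_set (Ioc_subset_Ioc_right htt)

/-- The legs are Lipschitz in their last time. -/
theorem leg_lip {L : ℕ} (hL : K.L₀ ≤ L + 1) {r t t' : ℝ} (hr : 0 ≤ r)
    (ht' : t' ≤ T) (l : Ph) :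
    K.leg L r t l ≤ K.leg L r t' l + ENNReal.ofReal (lrate K l.2) * ENNReal.ofReal |t - t'| := by
  unfold KinFamily.leg dlg Coll.damp
  refine en_le_en_add ?_
  rcases le_total t' t with h | h
  · refine (dampArg_mono K h l).trans le_self_add
  · have h1 := dampArg_lip K hL hr ht' l (t' := t)
    rw [abs_sub_comm, abs_of_nonneg (sub_nonneg.2 h)]
    exact h1

/-- Two-sided estimates give convergence. -/
theorem tendsto_of_lip {a : ℕ → ℝ≥0∞} {b : ℝ≥0∞} {δ : ℕ → ℝ≥0∞} (hb : b ≠ ∞)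
    (hδ : Tendsto δ atTop (𝓝 0)) (h1 : ∀ᶠ n in atTop, a n ≤ b + δ n)
    (h2 : ∀ᶠ n in atTop, b ≤ a n + δ n) : Tendsto a atTop (𝓝 b) := by
  have h3 : Tendsto (fun n => b + δ n) atTop (𝓝 b) := by
    have := (tendsto_const_nhds (x := b)).add hδ
    rwa [add_zero] at this
  have h4 : Tendsto (fun n => b - δ n) atTop (𝓝 b) := by
    have := ENNReal.Tendsto.sub (tendsto_const_nhds (x := b)) hδ (Or.inl hb)
    rwa [tsub_zero] at this
  refine tendsto_of_tendsto_of_tendsto_of_le_of_le' h4 h3 ?_ h1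
  filter_upwards [h2] with n hn
  exact tsub_le_iff_right.2 hn

theorem tendsto_leg {L : ℕ} (hL : K.L₀ ≤ L + 1) {r t₀ : ℝ} {ts : ℕ → ℝ} (hr : 0 ≤ r)
    (hts : ∀ n, ts n ≤ T) (ht : Tendsto ts atTop (𝓝 t₀)) (l : Ph) :
    Tendsto (fun n => K.leg L r (ts n) l) atTop (𝓝 (K.leg L r t₀ l)) := by
  have ht0 : t₀ ≤ T := le_of_tendsto' ht hts
  have h1 : Tendsto (fun n => ENNReal.ofReal (lrate K l.2) * ENNReal.ofReal |ts n - t₀|) atTop
      (𝓝 0) := by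
    have h2 : Tendsto (fun n => |ts n - t₀|) atTop (𝓝 0) := by
      have := (ht.sub_const t₀).abs
      rwa [sub_self, abs_zero] at this
    have h3 := ENNReal.Tendsto.const_mul (ENNReal.tendsto_ofReal h2)
      (Or.inr (ENNReal.ofReal_ne_top (r := lrate K l.2)))
    rwa [ENNReal.ofReal_zero, mul_zero] at h3
  refine tendsto_of_lip (ne_top_of_le_ne_top ENNReal.one_ne_top (leg_le_one K L _ _ _)) h1
    (Eventually.of_forall fun n => leg_lip K hL hr ht0 l)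
    (Eventually.of_forall fun n => ?_)
  rw [abs_sub_comm]
  exact leg_lip K hL hr (hts n) l

theorem tendsto_legW {L : ℕ} (hL : K.L₀ ≤ L + 1) {t₀ : ℝ} {ts : ℕ → ℝ}
    (hts : ∀ n, ts n ≤ T) (ht : Tendsto ts atTop (𝓝 t₀)) : ∀ (τ : Shape) (l : Ph) {p : PD τ},
    ordd τ t₀ p → Tendsto (fun n => legW Φ (K.leg L) τ (ts n) l p) atTop
      (𝓝 (legW Φ (K.leg L) τ t₀ l p))
  | .leaf, l, _, _ => tendsto_leg K hL le_rfl hts ht l
  | .node a b, l, p, ho => by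
    have h1 := tendsto_leg K hL ho.1.1.le hts ht l
    refine ENNReal.Tendsto.mul_const h1 (Or.inr ?_)
    refine ENNReal.mul_ne_top ?_ ?_
    · exact ne_top_of_le_ne_top ENNReal.one_ne_top (legW_le_one (fun s t l => leg_le_one K L s t l) a _ _ _)
    · exact ne_top_of_le_ne_top ENNReal.one_ne_top (legW_le_one (fun s t l => leg_le_one K L s t l) b _ _ _)

/-- The order of the times at the time `t`. -/
theorem ordd_iff (τ : Shape) {t t' : ℝ} {p : PD τ} (h : ordd τ t' p) :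
    ordd τ t p ↔ (τ = .leaf ∨ stm τ p ≤ t) := by
  cases τ with
  | leaf => exact ⟨fun _ => Or.inl rfl, fun _ => trivial⟩
  | node a b =>
    constructor
    · exact fun h' => Or.inr h'.1.2
    · rintro (h' | h')
      · cases h'
      · exact ⟨⟨h.1.1, h'⟩, h.2⟩

/-- The kinetic weights at times converging to a time different from the root time. -/
theorem tendsto_kk {L : ℕ} (hL : K.L₀ ≤ L + 1) {t₀ : ℝ} {ts : ℕ → ℝ}
    (hts : ∀ n, ts n ≤ T) (ht : Tendsto ts atTop (𝓝 t₀)) (τ : Shape) {x : Ph × PD τ}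
    (hx : ordd τ t₀ x.2) (hst : τ = .leaf ∨ stm τ x.2 < t₀) :
    Tendsto (fun n => kk K L τ (ts n) x) atTop
      (𝓝 (kw0 Φ f₀ τ x * legW Φ (K.leg L) τ t₀ x.1 x.2)) := by
  have h1 : ∀ᶠ n in atTop, ordd τ (ts n) x.2 := by
    rcases hst with h | h
    · exact Eventually.of_forall fun n => (ordd_iff τ hx).2 (Or.inl h)
    · filter_upwards [ht.eventually_const_lt h] with n hn
      exact (ordd_iff τ hx).2 (Or.inr hn.le)
  have h2 : Tendsto (fun n => kw0 Φ f₀ τ x * legW Φ (K.leg L) τ (ts n) x.1 x.2) atTop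
      (𝓝 (kw0 Φ f₀ τ x * legW Φ (K.leg L) τ t₀ x.1 x.2)) :=
    ENNReal.Tendsto.const_mul (tendsto_legW K hL hts ht τ x.1 hx) (Or.inr (kw0_ne_top τ x))
  refine h2.congr' ?_
  filter_upwards [h1] with n hn
  rw [kk_eq, ind_of_true hn, one_mul]

theorem tok_of_ordd : ∀ (τ : Shape) (v : E3) {t : ℝ} {p : PD τ}, ordd τ t p → gent τ p →
    tok Φ 0 τ v p
  | .leaf, _, _, _, _, _ => trivial
  | .node a b, v, t, p, ho, hg => by
    have ha := tok_of_ordd a (inVel Φ v p.1).1 ho.2.1 hg.2.1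
    have hb := tok_of_ordd b (inVel Φ v p.1).2 ho.2.2 hg.2.2
    have hs : ∀ (c : Shape) (q : PD c), ordd c p.1.1 q → stm c q ≤ p.1.1 := by
      intro c q hq
      cases c with
      | leaf => exact ho.1.1.le
      | node c d => exact hq.1.2
    refine ⟨⟨ha, hb⟩, ?_, ?_⟩
    · rw [ex_zero, zero_mul, add_zero]
      exact lt_of_le_of_ne (hs a _ ho.2.1) hg.1.1
    · rw [ex_zero, zero_mul, add_zero]
      exact lt_of_le_of_ne (hs b _ ho.2.2) hg.1.2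

/-- The weights of the microscopic trees. -/
theorem tendsto_tw (hc : ∀ v : E3, Continuous fun x : E3 => gE f₀ (x, v)) {εs : ℕ → ℝ}
    (hε : Tendsto εs atTop (𝓝 0)) (τ : Shape) {x : Ph × PD τ} {t : ℝ}
    (hx : ordd τ t x.2) (hg : gent τ x.2) :
    Tendsto (fun n => tw Φ (εs n) (gE f₀) τ x) atTop (𝓝 (kw0 Φ f₀ τ x)) := by
  have h1 := tok_eventually (Φ := Φ) hε τ x.1.2 x.2 hg
  have h2 := tok_of_ordd (Φ := Φ) τ x.1.2 hx hg
  have h3 := tendsto_lprod_bk (Φ := Φ) hc (fun z => gE_ne_top z) hε τ x.1.2 x.2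
    (fun _ => x.1.1) x.1.1 tendsto_const_nhds
  have h4 : Tendsto (fun n => KT.wt Φ τ x.1.2 x.2 * lprod (gE f₀) τ (bk Φ (εs n) τ x.1 x.2)) atTop
      (𝓝 (kw0 Φ f₀ τ x)) := by
    unfold kw0
    rw [leafW_eq_lprod]
    exact ENNReal.Tendsto.const_mul h3 (Or.inr (KT.wt_ne_top τ _ _))
  refine h4.congr' ?_
  filter_upwards [h1] with n hn
  unfold tw
  rw [indicator_of_mem (show x ∈ {x : Ph × PD τ | tok Φ (εs n) τ x.1.2 x.2} from hn.2 h2)]

end Vale.Agent.P119.END
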