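import Vale.Agent.P119.END.AliveKin

/-!
# P119, `AliveENN`: reduction to one tuple of shapes (`helper576`)

`aliveENN_of_core`: `AliveENN` from the convergence of the integrands for one tuple of shapes.
-/

open MeasureTheory Set Filter Topology
open scoped ENNReal

noncomputable section

namespace Vale.Agent.P119.END

open GC M CTree KT ML KE

variable {Φ : E3 → ℝ} {ε : ℝ} {L s : ℕ} {t : ℝ} {f₀ : Ph → ℝ} {κ : ℝ} {hΦ : IsPotential Φ}
  {m₀ : Measurable fun p : E3 × E3 => K1.f0hat f₀ p.1 p.2} {T : ℝ}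
  {f : ℝ → Ph → ℝ} (K : KinFamily hΦ f₀ m₀ T f)

/-- The defect of a tuple of shapes. -/
def defect (L : ℕ) (τ : Fin s → Shape) (ε t : ℝ) (x : ∀ k, Ph × PD (τ k)) : ℝ≥0∞ :=
  (∏ k, kk K L (τ k) t (x k)) - (∏ k, tw Φ ε (gE f₀) (τ k) (x k)) * Bx Φ ε L f₀ t τ x

/-- Convergence for one tuple of shapes. -/
def Core (L : ℕ) (τ : Fin s → Shape) : Prop :=
  ∀ δ : ℝ, 0 < δ → ∀ᶠ ε in 𝓝[>] (0 : ℝ), ∀ t ∈ Icc 0 T,
    ∫⁻ x, defect K L τ ε t x ∂(mref τ) ≤ ENNReal.ofReal δ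

theorem aliveENN_of_core (h : GoodDatum f₀ κ)
    (H : ∀ᶠ L : ℕ in atTop, ∀ τ ∈ Fintype.piFinset (fun _ : Fin s => shapes L), Core K L τ) :
    AliveENN f₀ T (uK K) (AL Φ) (MY Φ) s := by
  intro δ hδ
  filter_upwards [H, eventually_ge_atTop K.L₀] with L hL hL0
  have hgm := measurable_gE h
  set S := Fintype.piFinset (fun _ : Fin s => shapes L) with hS
  have hL' : K.L₀ ≤ L + 1 := hL0.trans (Nat.le_succ L)
  have hδ' : 0 < δ / (S.card + 1) := by positivity
  have h1 : ∀ᶠ ε in 𝓝[>] (0 : ℝ), ∀ τ ∈ S, ∀ t ∈ Icc 0 T,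
      ∫⁻ x, defect K L τ ε t x ∂(mref τ) ≤ ENNReal.ofReal (δ / (S.card + 1)) :=
    (Filter.eventually_all_finset S).2 fun τ hτ => hL τ hτ _ hδ'
  filter_upwards [h1, self_mem_nhdsWithin] with ε h2 hε t ht a ha ha1
  have hε : 0 < ε := hε
  have hmu : ENNReal.ofReal (mu ε) ≠ 0 := by
    have := mu_mul hε
    intro h0
    rw [h0, zero_mul] at this
    exact zero_ne_one this
  rw [lintegral_uK K hgm hL' ht ha]
  have h3 := alive_ge_param (L := L) (t := t) (s := s) hΦ h hε ha ha1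
  have h4 : ENNReal.ofReal (mu ε ^ s) = ENNReal.ofReal (mu ε) ^ s := by
    rw [ENNReal.ofReal_pow]
    exact (by unfold mu; positivity)
  have h5 : ∑ τ ∈ S, ∫⁻ x, a (fun k => KU.free t (x k).1) *
        ((∏ k, tw Φ ε (gE f₀) (τ k) (x k)) * Bx Φ ε L f₀ t τ x) ∂(mref τ) ≤
      (ENNReal.ofReal (mu ε ^ s))⁻¹ *
        ∫⁻ c, ∑ z ∈ tup s (pts c), {z : Fin s → Ph | ∀ k, AL Φ L ε c t (z k)}.indicator
      (fun z => a (fun k => MY Φ L ε c t (z k))) z ∂(PP f₀ ε) := by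
    rw [h4]
    exact (ENNReal.mul_le_iff_le_inv (pow_ne_zero _ hmu)
      (ENNReal.pow_ne_top ENNReal.ofReal_ne_top)).1 h3
  refine le_trans ?_ (add_le_add h5 le_rfl)
  have h6 : ∀ τ ∈ S, ∫⁻ x, a (fun k => KU.free t (x k).1) * ∏ k, kk K L (τ k) t (x k) ∂(mref τ) ≤
      ∫⁻ x, a (fun k => KU.free t (x k).1) *
        ((∏ k, tw Φ ε (gE f₀) (τ k) (x k)) * Bx Φ ε L f₀ t τ x) ∂(mref τ) +
        ENNReal.ofReal (δ / (S.card + 1)) := by
    intro τ hτ
    refine le_trans ?_ (add_le_add le_rfl (h2 τ hτ t ht))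
    have hm : Measurable fun x : ∀ k, Ph × PD (τ k) => a (fun k => KU.free t (x k).1) *
        ((∏ k, tw Φ ε (gE f₀) (τ k) (x k)) * Bx Φ ε L f₀ t τ x) := by
      have hf : Measurable (KU.free t) := (KU.free_preserving t).measurable
      refine (ha.comp (measurable_pi_iff.2 fun k => hf.comp (measurable_fst.comp
        (measurable_pi_apply k)))).mul (Measurable.mul ?_ (measurable_Bx hΦ h hε τ))
      exact Finset.measurable_prod _ fun k _ =>
        (measurable_tw hΦ ε hgm (τ k)).comp (measurable_pi_apply k)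
    rw [← lintegral_add_left hm]
    refine lintegral_mono fun x => ?_
    unfold defect
    set A := ∏ k, kk K L (τ k) t (x k)
    set B := (∏ k, tw Φ ε (gE f₀) (τ k) (x k)) * Bx Φ ε L f₀ t τ x
    set α := a (fun k => KU.free t (x k).1)
    have h7 : A ≤ B + (A - B) := le_add_tsub
    calc α * A ≤ α * (B + (A - B)) := by gcongr
      _ = α * B + α * (A - B) := mul_add _ _ _
      _ ≤ α * B + (A - B) := by
        gcongr
        exact mul_le_of_le_one_left' (ha1 _)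
  refine (Finset.sum_le_sum h6).trans ?_
  rw [Finset.sum_add_distrib]
  gcongr
  rw [Finset.sum_const, nsmul_eq_mul, ← ENNReal.ofReal_natCast, ← ENNReal.ofReal_mul (by positivity)]
  apply ENNReal.ofReal_le_ofReal
  rw [mul_div_assoc']
  rw [div_le_iff₀ (by positivity)]
  nlinarith

end Vale.Agent.P119.END
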