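import Vale.Agent.P119.END.AliveCore
import Vale.Agent.P119.KT.Energy

/-!
# P119, `AliveENN`: domination (`helper576`)

* `lintegral_kw0`: the dominating function is integrable;
* `core_of_pointwise`: `Core` from the convergence of the defect along sequences, almost everywhere.
-/

open MeasureTheory Set Filter Topology
open scoped ENNReal

noncomputable section

namespace Vale.Agent.P119.END

open GC M CTree KT ML KE

variable {Φ : E3 → ℝ} {ε : ℝ} {L s : ℕ} {t : ℝ} {f₀ : Ph → ℝ} {κ : ℝ}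

/-- The Gaussian weight of the leaves. -/
def lfb (M b : ℝ) (n : ℕ) (e : ℝ) : ℝ≥0∞ := ENNReal.ofReal (M ^ n * Real.exp (-b * e))

theorem lfb_mul {M b : ℝ} (hM : 0 ≤ M) (n m : ℕ) (e e' : ℝ) :
    lfb M b n e * lfb M b m e' = lfb M b (n + m) (e + e') := by
  unfold lfb
  rw [← ENNReal.ofReal_mul (by positivity)]
  congr 1
  rw [mul_add, Real.exp_add, pow_add]
  ring

theorem leafW_le {M b : ℝ} (hM : 0 ≤ M) {g : Ph → ℝ≥0∞} (hg : ∀ x v, g (x, v) ≤ gs M b v) :
    ∀ (τ : Shape) (z : LD τ), leafW g τ z ≤ lfb M b τ.card (enL τ z)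
  | .leaf, z => by
    have h1 := hg z.1 z.2
    unfold lfb
    unfold gs at h1
    change g z ≤ ENNReal.ofReal (M ^ 1 * Real.exp (-b * ‖z.2‖ ^ 2))
    rw [pow_one]
    exact h1
  | .node a b', z => by
    have ha := leafW_le hM hg a z.1
    have hb := leafW_le hM hg b' z.2
    have h2 := mul_le_mul' ha hb
    rw [lfb_mul hM] at h2
    exact h2

theorem lintegral_leafW (hΦ : IsPotential Φ) {M b : ℝ} (hM : 0 ≤ M) {g : Ph → ℝ≥0∞}
    (hgm : Measurable g) (hg : ∀ x v, g (x, v) ≤ gs M b v)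
    (hgi : ∀ v, ∫⁻ x, g (x, v) ≤ gs M b v) :
    ∀ (τ : Shape) (c v : E3) (p : PD τ), ∫⁻ y, leafW g τ (bk Φ 0 τ (y + c, v) p) ≤
      lfb M b τ.card (‖v‖ ^ 2 + enP τ p)
  | .leaf, c, v, p => by
    have h1 := hgi v
    unfold gs at h1
    have h2 : ∫⁻ y : E3, leafW g .leaf (bk Φ 0 .leaf (y + c, v) p) = ∫⁻ y, g (y, v) := by
      change ∫⁻ y : E3, g (y + c, v) = _
      exact lintegral_add_right_eq_self (fun y => g (y, v)) c
    rw [h2]
    unfold lfb
    change _ ≤ ENNReal.ofReal (M ^ 1 * Real.exp (-b * (‖v‖ ^ 2 + 0)))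
    rw [pow_one, add_zero]
    exact h1
  | .node a b', c, v, p => by
    -- the incoming lines are translates
    obtain ⟨c1, hc1⟩ : ∃ c1 : E3, ∀ y : E3, (inLines Φ 0 (y + c, v) p.1).1 =
        (y + c1, (inVel Φ v p.1).1) := by
      refine ⟨c + (p.1.1 / 2) • ((outRel v p.1).2 - (inRel Φ v p.1).2), fun y => ?_⟩
      rw [inLines_def]
      ext1
      · simp only [zero_div, zero_smul, add_zero]
        abel
      · rfl
    obtain ⟨c2, hc2⟩ : ∃ c2 : E3, ∀ y : E3, (inLines Φ 0 (y + c, v) p.1).2 =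
        (y + c2, (inVel Φ v p.1).2) := by
      refine ⟨c + (p.1.1 / 2) • ((outRel v p.1).2 + (inRel Φ v p.1).2), fun y => ?_⟩
      rw [inLines_def]
      ext1
      · simp only [zero_div, zero_smul, sub_zero]
        abel
      · rfl
    have ha := lintegral_leafW hΦ hM hgm hg hgi a c1 (inVel Φ v p.1).1 p.2.1
    have hb : ∀ y : E3, leafW g b' (bk Φ 0 b' (y + c2, (inVel Φ v p.1).2) p.2.2) ≤
        lfb M b b'.card (‖(inVel Φ v p.1).2‖ ^ 2 + enP b' p.2.2) := by
      intro y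
      have h1 := leafW_le hM hg b' (bk Φ 0 b' (y + c2, (inVel Φ v p.1).2) p.2.2)
      rw [enL_bk hΦ] at h1
      exact h1
    calc ∫⁻ y : E3, leafW g (.node a b') (bk Φ 0 (.node a b') (y + c, v) p)
        = ∫⁻ y : E3, leafW g a (bk Φ 0 a (y + c1, (inVel Φ v p.1).1) p.2.1) *
          leafW g b' (bk Φ 0 b' (y + c2, (inVel Φ v p.1).2) p.2.2) := by
          refine lintegral_congr fun y => ?_
          change leafW g a (bk Φ 0 a (inLines Φ 0 (y + c, v) p.1).1 p.2.1) *
            leafW g b' (bk Φ 0 b' (inLines Φ 0 (y + c, v) p.1).2 p.2.2) = _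
          rw [hc1, hc2]
      _ ≤ ∫⁻ y : E3, leafW g a (bk Φ 0 a (y + c1, (inVel Φ v p.1).1) p.2.1) *
          lfb M b b'.card (‖(inVel Φ v p.1).2‖ ^ 2 + enP b' p.2.2) := by
          refine lintegral_mono fun y => ?_
          gcongr
          exact hb y
      _ = (∫⁻ y : E3, leafW g a (bk Φ 0 a (y + c1, (inVel Φ v p.1).1) p.2.1)) *
          lfb M b b'.card (‖(inVel Φ v p.1).2‖ ^ 2 + enP b' p.2.2) := by
          rw [lintegral_mul_const' _ _ (by unfold lfb; exact ENNReal.ofReal_ne_top)]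
      _ ≤ lfb M b a.card (‖(inVel Φ v p.1).1‖ ^ 2 + enP a p.2.1) *
          lfb M b b'.card (‖(inVel Φ v p.1).2‖ ^ 2 + enP b' p.2.2) := by gcongr
      _ = lfb M b (a.card + b'.card) (‖v‖ ^ 2 + (‖p.1.2.1‖ ^ 2 + (enP a p.2.1 + enP b' p.2.2))) := by
          rw [lfb_mul hM]
          congr 1
          have := inVel_energy hΦ v p.1
          linarith

theorem leafW_eq_lprod (g : Ph → ℝ≥0∞) : ∀ (τ : Shape) (z : LD τ), leafW g τ z = lprod g τ z
  | .leaf, _ => rfl
  | .node a b, z => by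
    change leafW g a z.1 * leafW g b z.2 = lprod g a z.1 * lprod g b z.2
    rw [leafW_eq_lprod g a, leafW_eq_lprod g b]

theorem measurableSet_ordd_prod : ∀ τ : Shape, MeasurableSet {x : ℝ × PD τ | ordd τ x.1 x.2}
  | .leaf => MeasurableSet.univ
  | .node a b => by
    have h1 : Measurable fun x : ℝ × (ND × PD a × PD b) => x.2.1.1 := by fun_prop
    have h2 : Measurable fun x : ℝ × (ND × PD a × PD b) => (x.2.1.1, x.2.2.1) := by fun_prop
    have h3 : Measurable fun x : ℝ × (ND × PD a × PD b) => (x.2.1.1, x.2.2.2) := by fun_prop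
    exact ((measurableSet_lt measurable_const h1).inter (measurableSet_le h1 measurable_fst)).inter
      ((h2 (measurableSet_ordd_prod a)).inter (h3 (measurableSet_ordd_prod b)))

theorem measurableSet_ordd (τ : Shape) (t : ℝ) : MeasurableSet {p : PD τ | ordd τ t p} :=
  measurable_prodMk_left (measurableSet_ordd_prod τ)

theorem ordd_mono {t' : ℝ} : ∀ (τ : Shape) {p : PD τ}, t ≤ t' → ordd τ t p → ordd τ t' p
  | .leaf, _, _, _ => trivial
  | .node _ _, _, h, ⟨⟨h1, h2⟩, h3⟩ => ⟨⟨h1, h2.trans h⟩, h3⟩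

theorem win_of_ordd : ∀ (τ : Shape) {t : ℝ} (v : E3) {p : PD τ}, ordd τ t p → win t Φ τ v p
  | .leaf, _, _, _, _ => trivial
  | .node a b, t, v, p, ⟨⟨h1, h2⟩, h3, h4⟩ => by
    have h5 : 0 ≤ ‖v - p.1.2.1‖⁻¹ := by positivity
    have ha := win_of_ordd a (inVel Φ v p.1).1 (ordd_mono a h2 h3)
    have hb := win_of_ordd b (inVel Φ v p.1).2 (ordd_mono b h2 h4)
    exact ⟨⟨by linarith, by linarith⟩, ha, hb⟩

theorem measurable_kw0 (hΦ : IsPotential Φ) (hgm : Measurable (gE f₀)) (τ : Shape) :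
    Measurable (kw0 Φ f₀ τ) := by
  have h : Measurable fun x : Ph × PD τ => (x.1.2, x.2) := by fun_prop
  have h2 : Measurable fun x : Ph × PD τ => lprod (gE f₀) τ (bk Φ 0 τ x.1 x.2) :=
    (measurable_lprod hgm τ).comp (measurable_bk hΦ 0 τ)
  have h3 := ((KT.measurable_wt hΦ τ).comp h).mul h2
  unfold kw0
  simp only [leafW_eq_lprod]
  exact h3

/-- The dominating function. -/
def dw (Φ : E3 → ℝ) (f₀ : Ph → ℝ) (T : ℝ) (τ : Shape) (x : Ph × PD τ) : ℝ≥0∞ :=
  ind (ordd τ T x.2) * kw0 Φ f₀ τ x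

theorem measurable_dw (hΦ : IsPotential Φ) (hgm : Measurable (gE f₀)) (T : ℝ) (τ : Shape) :
    Measurable (dw Φ f₀ T τ) := by
  refine Measurable.mul ?_ (measurable_kw0 hΦ hgm τ)
  exact measurable_ind (measurable_snd (measurableSet_ordd τ T))

theorem kk_le_dw {hΦ : IsPotential Φ}
    {m₀ : Measurable fun p : E3 × E3 => K1.f0hat f₀ p.1 p.2} {T : ℝ}
    {f : ℝ → Ph → ℝ} (K : KinFamily hΦ f₀ m₀ T f) (L : ℕ) (τ : Shape) {t : ℝ} (ht : t ≤ T)
    (x : Ph × PD τ) : kk K L τ t x ≤ dw Φ f₀ T τ x := by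
  refine (kk_le K L τ t x).trans ?_
  unfold dw
  gcongr
  exact ind_mono fun h => ordd_mono τ ht h

/-- **The dominating function is integrable.** -/
theorem lintegral_dw (hΦ : IsPotential Φ) {M b T : ℝ} (hM : 0 ≤ M) (hb : 0 < b) (hT : 0 ≤ T)
    (hgm : Measurable (gE f₀)) (hg : ∀ x v, gE f₀ (x, v) ≤ gs M b v)
    (hgi : ∀ v, ∫⁻ x, gE f₀ (x, v) ≤ gs M b v) (τ : Shape) :
    ∫⁻ x, dw Φ f₀ T τ x ∂((volume : Measure Ph).prod (pvol τ)) ≠ ∞ := by
  have hm := measurable_dw hΦ hgm T τ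
  have hsf : SFinite (pvol τ) := inferInstance
  obtain ⟨C, hC, hCb⟩ := KT.lintegral_win_le hΦ hb hT τ (b / 2) (by positivity)
  rw [lintegral_prod _ hm.aemeasurable]
  have hm2 : Measurable fun l : Ph => ∫⁻ p, dw Φ f₀ T τ (l, p) ∂pvol τ := hm.lintegral_prod_right'
  rw [Measure.volume_eq_prod, lintegral_prod_symm _ hm2.aemeasurable]
  have h1 : ∀ v : E3, ∫⁻ y : E3, ∫⁻ p, dw Φ f₀ T τ ((y, v), p) ∂pvol τ ≤
      ENNReal.ofReal (M ^ τ.card * C) * gs 1 (b / 2) v := by
    intro v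
    have hm3 : Measurable fun q : E3 × PD τ => dw Φ f₀ T τ ((q.1, v), q.2) :=
      hm.comp (by fun_prop : Measurable fun q : E3 × PD τ => ((q.1, v), q.2))
    rw [lintegral_lintegral_swap hm3.aemeasurable]
    have h2 : ∀ p : PD τ, ∫⁻ y : E3, dw Φ f₀ T τ ((y, v), p) ≤
        ENNReal.ofReal (M ^ τ.card * Real.exp (-b * ‖v‖ ^ 2)) *
        (KT.wt Φ τ v p * {x : E3 × PD τ | win T Φ τ x.1 x.2}.indicator
        (fun x => ENNReal.ofReal (Real.exp (-b * enP τ x.2))) (v, p)) := by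
      intro p
      have h3 := lintegral_leafW hΦ hM hgm hg hgi τ 0 v p
      simp only [add_zero] at h3
      by_cases ho : ordd τ T p
      · have h4 : (v, p) ∈ {x : E3 × PD τ | win T Φ τ x.1 x.2} := win_of_ordd τ v ho
        rw [indicator_of_mem h4]
        calc ∫⁻ y : E3, dw Φ f₀ T τ ((y, v), p)
            = ∫⁻ y : E3, KT.wt Φ τ v p * leafW (gE f₀) τ (bk Φ 0 τ (y, v) p) := by
              refine lintegral_congr fun y => ?_
              unfold dw kw0
              rw [ind_of_true ho, one_mul]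
          _ = KT.wt Φ τ v p * ∫⁻ y : E3, leafW (gE f₀) τ (bk Φ 0 τ (y, v) p) := by
              rw [lintegral_const_mul' _ _ (KT.wt_ne_top τ _ _)]
          _ ≤ KT.wt Φ τ v p * lfb M b τ.card (‖v‖ ^ 2 + enP τ p) := by gcongr
          _ = _ := by
              have e1 : lfb M b τ.card (‖v‖ ^ 2 + enP τ p) =
                  ENNReal.ofReal (M ^ τ.card * Real.exp (-b * ‖v‖ ^ 2)) *
                    ENNReal.ofReal (Real.exp (-b * enP τ p)) := by
                unfold lfb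
                rw [← ENNReal.ofReal_mul (by positivity), mul_add, Real.exp_add]
                congr 1
                ring
              rw [e1]
              ring
      · have h5 : ∀ y : E3, dw Φ f₀ T τ ((y, v), p) = 0 := fun y => by
          unfold dw
          rw [ind_of_false ho, zero_mul]
        simp only [h5, lintegral_zero]
        exact zero_le
    refine (lintegral_mono h2).trans ?_
    rw [lintegral_const_mul' _ _ ENNReal.ofReal_ne_top]
    refine (mul_le_mul_right (hCb v) _).trans (le_of_eq ?_)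
    unfold gs
    rw [← ENNReal.ofReal_mul (by positivity), ← ENNReal.ofReal_mul (by positivity)]
    congr 1
    have e2 : Real.exp (-(b / 2) * ‖v‖ ^ 2) =
        Real.exp (-b * ‖v‖ ^ 2) * Real.exp (b / 2 * ‖v‖ ^ 2) := by
      rw [← Real.exp_add]
      congr 1
      ring
    rw [e2]
    ring
  refine ne_top_of_le_ne_top ?_ (lintegral_mono h1)
  rw [lintegral_const_mul' _ _ ENNReal.ofReal_ne_top, KE.lintegral_gs zero_le_one (by positivity)]
  exact ENNReal.mul_ne_top ENNReal.ofReal_ne_top ENNReal.ofReal_ne_top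

section Core

variable {hΦ : IsPotential Φ}
  {m₀ : Measurable fun p : E3 × E3 => K1.f0hat f₀ p.1 p.2} {T : ℝ}
  {f : ℝ → Ph → ℝ} (K : KinFamily hΦ f₀ m₀ T f)

theorem measurable_defect (h : GoodDatum f₀ κ) (hε : 0 < ε) (L : ℕ) (τ : Fin s → Shape) (t : ℝ) :
    Measurable (defect K L τ ε t) := by
  have hgm := measurable_gE h
  refine Measurable.sub ?_ (Measurable.mul ?_ (measurable_Bx hΦ h hε τ))
  · exact Finset.measurable_prod _ fun k _ =>
      (measurable_kk K hgm L (τ k) t).comp (measurable_pi_apply k)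
  · exact Finset.measurable_prod _ fun k _ =>
      (measurable_tw hΦ ε hgm (τ k)).comp (measurable_pi_apply k)

include K in
theorem lintegral_prod_dw (h : GoodDatum f₀ κ) (hT : 0 ≤ T) (τ : Fin s → Shape) :
    ∫⁻ x, ∏ k, dw Φ f₀ T (τ k) (x k) ∂(mref τ) ≠ ∞ := by
  have hgm := measurable_gE h
  have e : ∫⁻ x, ∏ k, dw Φ f₀ T (τ k) (x k) ∂(mref τ) =
      ∏ k, ∫⁻ x, dw Φ f₀ T (τ k) x ∂((volume : Measure Ph).prod (pvol (τ k))) := by
    have hsv : ∀ k, SigmaFinite ((volume : Measure Ph).prod (pvol (τ k))) := fun k => inferInstance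
    exact lintegral_pi_prod fun k => measurable_dw hΦ hgm T (τ k)
  rw [e]
  exact ENNReal.prod_ne_top fun k _ => lintegral_dw hΦ K.M0 K.b0 hT hgm (fun x v => K.f0_le x v)
    (fun v => K.f0_mass v) (τ k)

/-- **`Core` from the convergence of the defect along sequences, almost everywhere.** -/
theorem core_of_pointwise (h : GoodDatum f₀ κ) (hT : 0 ≤ T) (τ : Fin s → Shape)
    (H : ∀ (εs ts : ℕ → ℝ) (t₀ : ℝ), (∀ n, 0 < εs n) → Tendsto εs atTop (𝓝 0) →
      (∀ n, ts n ∈ Icc 0 T) → Tendsto ts atTop (𝓝 t₀) → t₀ ∈ Icc 0 T →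
      ∀ᵐ x ∂(mref τ), Tendsto (fun n => defect K L τ (εs n) (ts n) x) atTop (𝓝 0)) :
    Core K L τ := by
  intro δ hδ
  by_contra hcon
  rw [not_eventually] at hcon
  obtain ⟨es, hes, hes'⟩ := Filter.exists_seq_forall_of_frequently hcon
  push Not at hes'
  choose us hus1 hus2 using hes'
  obtain ⟨t₀, ht₀, φ, hφ, hφt⟩ := isCompact_Icc.tendsto_subseq (x := us) hus1
  have hpos : ∀ᶠ n in atTop, 0 < es n := by
    have := hes.eventually self_mem_nhdsWithin
    exact this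
  obtain ⟨N, hN⟩ := eventually_atTop.1 hpos
  set εs : ℕ → ℝ := fun n => es (φ (n + N)) with hεs
  set ts : ℕ → ℝ := fun n => us (φ (n + N)) with hts
  have h1 : ∀ n, 0 < εs n := fun n => hN _ ((Nat.le_add_left N n).trans (hφ.id_le _))
  have hshift : Tendsto (fun n : ℕ => n + N) atTop atTop := tendsto_add_atTop_nat N
  have h2 : Tendsto εs atTop (𝓝 0) :=
    (tendsto_nhdsWithin_iff.1 hes).1.comp (hφ.tendsto_atTop.comp hshift)
  have h3 : Tendsto ts atTop (𝓝 t₀) := hφt.comp hshift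
  have h4 := H εs ts t₀ h1 h2 (fun n => hus1 _) h3 ht₀
  have h5 : Tendsto (fun n => ∫⁻ x, defect K L τ (εs n) (ts n) x ∂(mref τ)) atTop
      (𝓝 (∫⁻ _ : (k : Fin s) → Ph × PD (τ k), (0 : ℝ≥0∞) ∂(mref τ))) := by
    refine tendsto_lintegral_of_dominated_convergence
      (fun x => ∏ k, dw Φ f₀ T (τ k) (x k)) (fun n => measurable_defect K h (h1 n) L τ _) ?_
      (lintegral_prod_dw K h hT τ) h4
    intro n
    refine Eventually.of_forall fun x => ?_
    refine tsub_le_self.trans ?_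
    exact Finset.prod_le_prod' fun k _ => kk_le_dw K L (τ k) (hus1 _).2 (x k)
  rw [lintegral_zero] at h5
  have h6 : ∀ᶠ n in atTop, ∫⁻ x, defect K L τ (εs n) (ts n) x ∂(mref τ) < ENNReal.ofReal δ :=
    h5.eventually_lt_const (ENNReal.ofReal_pos.2 hδ)
  obtain ⟨n, hn⟩ := h6.exists
  exact absurd (hus2 (φ (n + N))) (not_lt.2 hn.le)

end Core

end Vale.Agent.P119.END
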