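import Vale.Agent.P119.END.AliveGen3
import Vale.Agent.P119.KE.Shapes

/-!
# P119, `AliveENN`: generic forests from ordered parameters (`helper860`)

* `tord_of_ordd`: `ordd` and `gent` give `Tord`;
* `ae_Gen_ordd`.
-/

open MeasureTheory Set Filter Topology
open scoped ENNReal

noncomputable section

namespace Vale.Agent.P119.END

open GC M CTree KT ML

variable {Φ : E3 → ℝ} {ε : ℝ} {L s : ℕ} {t : ℝ} {f₀ : Ph → ℝ} {κ : ℝ}

theorem stm_le_ordd {τ : Shape} {p : PD τ} {t : ℝ} (ht : 0 ≤ t) (h : KE.ordd τ t p) :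
    stm τ p ≤ t := by
  cases τ with
  | leaf => exact ht
  | node a b => exact h.1.2

theorem tord_of_ordd : ∀ (τ : Shape) (p : PD τ) (t : ℝ), gent τ p → KE.ordd τ t p → Tord τ p
  | .leaf, _, _, _, _ => trivial
  | .node a b, p, t, hg, ho =>
    ⟨⟨tord_of_ordd a p.2.1 p.1.1 hg.2.1 ho.2.1, tord_of_ordd b p.2.2 p.1.1 hg.2.2 ho.2.2⟩,
      lt_of_le_of_ne (stm_le_ordd ho.1.1.le ho.2.1) hg.1.1,
      lt_of_le_of_ne (stm_le_ordd ho.1.1.le ho.2.2) hg.1.2⟩

/-- **The germs of almost every tuple of trees with ordered times form a generic forest.** -/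
theorem ae_Gen_ordd (hΦ : IsPotential Φ) (τ : Fin s → Shape) (hτ : ∀ k, (τ k).depth ≤ L) :
    ∀ᵐ x ∂(mref τ), (∀ k, good Φ (τ k) (x k).1.2 (x k).2) →
      ∀ t, 0 < t → (∀ k, KE.ordd (τ k) t (x k).2) → Gen Φ L (germs τ x) t := by
  filter_upwards [ae_Gen (L := L) hΦ τ hτ, ae_stm_ne τ 0] with x h1 h2 hg t ht ho
  exact h1 hg (fun k => tord_of_ordd _ _ _ (h2 k).1 (ho k)) t ht

end Vale.Agent.P119.END
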