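import Vale.Agent.P119.END.AliveLim
import Vale.Agent.P119.END.AliveGen4
import Vale.Agent.P119.ML.Sys
import Vale.Agent.P119.ML.Rate

/-!
# P119, `AliveENN`: from generic systems (`helper576`)

* `sv_germs`: the limit weight of the forest of a tuple;
* `survLim_of`, `relLim_of`: `SurvLim` and `RelLim` for a system of generic forests;
* `aliveENN_of_sys`.
-/

open MeasureTheory Set Filter Topology
open scoped ENNReal

noncomputable section

namespace Vale.Agent.P119.END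

open GC M CTree KT ML KE

variable {Φ : E3 → ℝ} {L s : ℕ} {f₀ : Ph → ℝ} {κ : ℝ}
  {hΦ : IsPotential Φ} {m₀ : Measurable fun p : E3 × E3 => K1.f0hat f₀ p.1 p.2} {T : ℝ}
  {f : ℝ → Ph → ℝ} (K : KinFamily hΦ f₀ m₀ T f)

theorem sv_eq_prod (hΦ : IsPotential Φ) {R : Ph → ℝ → ℝ≥0∞} (hR : Measurable fun x : Ph × ℝ => R x.1 x.2)
    (F : List TG) (t : ℝ) : sv R Φ F t = (F.map fun G => sv R Φ [G] t).prod := by
  induction F with
  | nil => rw [sv_nil, List.map_nil, List.prod_nil]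
  | cons G F ih => rw [sv_cons hΦ hR, ih, List.map_cons, List.prod_cons]

/-- The limit weight of the forest of a tuple. -/
theorem sv_germs (τ : Fin s → Shape) (x : ∀ k, Ph × PD (τ k)) {t : ℝ} (ht : 0 ≤ t)
    (ho : ∀ k, ordd (τ k) t (x k).2) :
    sv (rt K L) Φ (germs τ x) t = ∏ k, legW Φ (K.leg L) (τ k) t (x k).1 (x k).2 := by
  rw [sv_eq_prod hΦ (measurable_rt K L)]
  unfold germs
  rw [List.map_ofFn, List.prod_ofFn]
  refine Finset.prod_congr rfl fun k _ => ?_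
  simp only [Function.comp_apply]
  rw [sv_singleton (measurable_rt K L) _ ht (ho k), leg_eq]

/-- The limit of the survival probabilities of generic forests (388's export). -/
def SvLim (S : GSys Φ f₀ L) : Prop :=
  ∀ εs : ℕ → ℝ, (∀ n, 0 < εs n) → Tendsto εs atTop (𝓝 0) → ∀ t ∈ Icc 0 T, ∀ F, S.Gen F t →
    Tendsto (fun n => surv Φ (εs n) L f₀ (trees Φ (εs n) F) t) atTop (𝓝 (sv (rt K L) Φ F t))

theorem survLim_of (S : GSys Φ f₀ L) (hgen : ∀ F t, Gen Φ L F t → S.Gen F t) (hS : SvLim K S)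
    (τ : Fin s → Shape) (hτ : ∀ k, (τ k).depth ≤ L) : SurvLim K L τ := by
  intro εs hε hε0 t ht
  filter_upwards [ae_Gen_ordd hΦ τ hτ] with x hx hg ho
  have h1 := hS εs hε hε0 t ⟨ht.1.le, ht.2⟩ (germs τ x) (hgen _ _ (hx hg t ht.1 ho))
  rwa [sv_germs K τ x ht.1.le ho] at h1

theorem relLim_of (hΦ : IsPotential Φ) (hT : 0 < T) (S : GSys Φ f₀ L)
    (hgen : ∀ F t, Gen Φ L F t → S.Gen F t)
    (τ : Fin s → Shape) (hτ : ∀ k, (τ k).depth ≤ L) : RelLim Φ f₀ T L τ := by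
  intro εs hε hε0
  filter_upwards [ae_Gen_ordd hΦ τ hτ] with x hx hg ho
  have h1 := S.rel (hgen _ _ (hx hg T hT ho))
  exact h1.comp (tendsto_nhdsWithin_iff.2 ⟨hε0, Eventually.of_forall hε⟩)

/-- **`AliveENN` for systems of generic forests.** -/
theorem aliveENN_of_sys (h : GoodDatum f₀ κ) (hc : Continuous f₀) (hT : 0 < T) (s : ℕ)
    (S : ∀ L, GSys Φ f₀ L) (hgen : ∀ L F t, Gen Φ L F t → (S L).Gen F t)
    (hS : ∀ L, K.L₀ ≤ L + 1 → SvLim K (S L)) :
    AliveENN f₀ T (uK K) (AL Φ) (MY Φ) s := by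
  refine aliveENN_of_lim K h hc hT s ?_
  filter_upwards [eventually_ge_atTop K.L₀] with L hL τ hτ
  have hτ' : ∀ k, (τ k).depth ≤ L := fun k => mem_shapes.1 (Fintype.mem_piFinset.1 hτ k)
  exact ⟨survLim_of K (S L) (hgen L) (hS L (hL.trans (Nat.le_succ L))) τ hτ',
    relLim_of hΦ hT (S L) (hgen L) τ hτ'⟩

end Vale.Agent.P119.END
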