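import Vale.Agent.P119.END.AliveRed
import Vale.Agent.P119.KT.Far

/-!
# P119, `AliveENN`: almost every tuple of trees is generic (`helper860`)

* `ae_pi_one`, `ae_pi_pair`: almost everywhere for one coordinate and for two coordinates;
* `ae_PW`: the leaves are far from one another for small `ε`;
* `ae_root_ne`: the roots are in different places at a given time;
* `ae_stm_ne`: no collision at a given time.
-/

open MeasureTheory Set Filter Topology
open scoped ENNReal

noncomputable section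

namespace Vale.Agent.P119.END

open GC M CTree KT ML

variable {Φ : E3 → ℝ} {ε : ℝ} {L s : ℕ} {t : ℝ} {f₀ : Ph → ℝ} {κ : ℝ}

theorem ae_pi_one {n : ℕ} {E : Fin n → Type*} {mE : ∀ i, MeasurableSpace (E i)}
    {μ : (i : Fin n) → Measure (E i)} [∀ i, SigmaFinite (μ i)] (k : Fin n) {P : E k → Prop}
    (h : ∀ᵐ y ∂(μ k), P y) : ∀ᵐ x ∂(Measure.pi μ), P (x k) :=
  (Measure.quasiMeasurePreserving_eval μ k).ae h

theorem ae_pi_pair {n : ℕ} {E : Fin n → Type*} {mE : ∀ i, MeasurableSpace (E i)}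
    {μ : (i : Fin n) → Measure (E i)} [∀ i, SigmaFinite (μ i)] {k l : Fin n} (hkl : k ≠ l)
    {P : E k × E l → Prop} (hm : MeasurableSet {p | P p})
    (h : ∀ᵐ p ∂((μ k).prod (μ l)), P p) : ∀ᵐ x ∂(Measure.pi μ), P (x k, x l) := by
  obtain ⟨n, rfl⟩ : ∃ m, n = m + 1 := ⟨n - 1, by have := k.2; omega⟩
  obtain ⟨j, rfl⟩ := Fin.exists_succAbove_eq hkl.symm
  have h1 := measurePreserving_piFinSuccAbove μ k
  have h2 : ∀ᵐ y ∂((μ k).prod (Measure.pi fun i => μ (k.succAbove i))), P (y.1, y.2 j) := by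
    have hm2 : MeasurableSet {y : E k × (∀ i, E (k.succAbove i)) | P (y.1, y.2 j)} := by
      have h3 : Measurable fun y : E k × (∀ i, E (k.succAbove i)) => (y.1, y.2 j) :=
        measurable_fst.prodMk ((measurable_pi_apply j).comp measurable_snd)
      exact h3 hm
    rw [Measure.ae_prod_iff_ae_ae hm2]
    rw [Measure.ae_prod_iff_ae_ae hm] at h
    filter_upwards [h] with y hy
    exact ae_pi_one (μ := fun i => μ (k.succAbove i)) j hy
  exact h1.quasiMeasurePreserving.ae h2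

/-- The position of the root is generic. -/
theorem ae_pos_ne (τ : Shape) {c : E3 × PD τ → E3} (hc : Measurable c) :
    ∀ᵐ x : Ph × PD τ ∂((volume : Measure Ph).prod (pvol τ)), x.1.1 ≠ c (x.1.2, x.2) := by
  have hm : MeasurableSet {x : Ph × PD τ | x.1.1 = c (x.1.2, x.2)} :=
    measurableSet_eq_fun (by fun_prop) (hc.comp (by fun_prop))
  have h1 : ((volume : Measure Ph).prod (pvol τ)) {x : Ph × PD τ | x.1.1 = c (x.1.2, x.2)} = 0 := by
    rw [Measure.prod_apply_symm hm]
    have h2 : ∀ p : PD τ, (volume : Measure Ph)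
        ((fun L : Ph => (L, p)) ⁻¹' {x : Ph × PD τ | x.1.1 = c (x.1.2, x.2)}) = 0 := by
      intro p
      have hm2 : MeasurableSet ((fun L : Ph => (L, p)) ⁻¹'
          {x : Ph × PD τ | x.1.1 = c (x.1.2, x.2)}) := (by fun_prop : Measurable fun L : Ph => (L, p)) hm
      have h3 : ((volume : Measure E3).prod (volume : Measure E3))
          ((fun L : Ph => (L, p)) ⁻¹' {x : Ph × PD τ | x.1.1 = c (x.1.2, x.2)}) = 0 := by
        rw [Measure.prod_apply_symm hm2]
        have h4 : ∀ v : E3, (volume : Measure E3) ((fun y : E3 => (y, v)) ⁻¹'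
            ((fun L : Ph => (L, p)) ⁻¹' {x : Ph × PD τ | x.1.1 = c (x.1.2, x.2)})) = 0 := by
          intro v
          have h5 : ((fun y : E3 => (y, v)) ⁻¹'
            ((fun L : Ph => (L, p)) ⁻¹' {x : Ph × PD τ | x.1.1 = c (x.1.2, x.2)})) = {c (v, p)} := by
            ext y
            simp only [mem_preimage, Set.mem_ofPred_eq, mem_singleton_iff]
          rw [h5]
          exact measure_singleton _
        simp only [h4, lintegral_zero]
      exact h3
    simp only [h2, lintegral_zero]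
  exact measure_eq_zero_iff_ae_notMem.1 h1

/-- Two roots with generic positions. -/
theorem ae_pair_ne (τ : Fin s → Shape) {k l : Fin s} (hkl : k ≠ l)
    {c : E3 × PD (τ k) → E3} (hc : Measurable c) {d : Ph × PD (τ l) → E3} (hd : Measurable d) :
    ∀ᵐ x ∂(mref τ), (x k).1.1 + c ((x k).1.2, (x k).2) ≠ d (x l) := by
  have hs : ∀ k, SigmaFinite ((volume : Measure Ph).prod (pvol (τ k))) := fun k => inferInstance
  refine ae_pi_pair (μ := fun k => (volume : Measure Ph).prod (pvol (τ k))) hkl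
    (P := fun p : (Ph × PD (τ k)) × (Ph × PD (τ l)) =>
      p.1.1.1 + c (p.1.1.2, p.1.2) ≠ d p.2) ?_ ?_
  · exact (measurableSet_eq_fun ((by fun_prop : Measurable fun p : (Ph × PD (τ k)) ×
      (Ph × PD (τ l)) => p.1.1.1).add (hc.comp (by fun_prop))) (hd.comp measurable_snd)).compl
  · have hm : MeasurableSet {p : (Ph × PD (τ k)) × (Ph × PD (τ l)) |
      p.1.1.1 + c (p.1.1.2, p.1.2) = d p.2} :=
      measurableSet_eq_fun ((by fun_prop : Measurable fun p : (Ph × PD (τ k)) ×
      (Ph × PD (τ l)) => p.1.1.1).add (hc.comp (by fun_prop))) (hd.comp measurable_snd)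
    have h1 : (((volume : Measure Ph).prod (pvol (τ k))).prod
        ((volume : Measure Ph).prod (pvol (τ l)))) {p : (Ph × PD (τ k)) × (Ph × PD (τ l)) |
      p.1.1.1 + c (p.1.1.2, p.1.2) = d p.2} = 0 := by
      rw [Measure.prod_apply_symm hm]
      have h2 : ∀ y : Ph × PD (τ l), ((volume : Measure Ph).prod (pvol (τ k)))
          ((fun x => (x, y)) ⁻¹' {p : (Ph × PD (τ k)) × (Ph × PD (τ l)) |
            p.1.1.1 + c (p.1.1.2, p.1.2) = d p.2}) = 0 := by
        intro y
        have h3 := ae_pos_ne (τ k) (c := fun z => d y - c z) (measurable_const.sub hc)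
        refine measure_mono_null ?_ (measure_eq_zero_iff_ae_notMem.2 h3)
        intro x hx
        simp only [mem_preimage, Set.mem_ofPred_eq] at hx
        show x.1.1 = d y - c (x.1.2, x.2)
        rw [← hx]
        abel
      simp only [h2, lintegral_zero]
    exact measure_eq_zero_iff_ae_notMem.1 h1

/-- The roots are in different places at a given time. -/
theorem ae_root_ne (τ : Fin s → Shape) (t₀ : ℝ) :
    ∀ᵐ x ∂(mref τ), ∀ k l, k ≠ l → (KU.free t₀ (x k).1).1 ≠ (KU.free t₀ (x l).1).1 := by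
  rw [ae_all_iff]
  intro k
  rw [ae_all_iff]
  intro l
  by_cases hkl : k = l
  · exact Eventually.of_forall fun x h => absurd hkl h
  · have h1 := ae_pair_ne τ hkl (c := fun z => t₀ • z.1) (by fun_prop)
      (d := fun z => z.1.1 + t₀ • z.1.2) (by fun_prop)
    filter_upwards [h1] with x hx _
    exact hx

/-- No collision at a given time. -/
theorem ae_stm_ne (τ : Fin s → Shape) (t₀ : ℝ) :
    ∀ᵐ x ∂(mref τ), ∀ k, gent (τ k) (x k).2 ∧ (stm (τ k) (x k).2 = t₀ → τ k = .leaf) := by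
  have hs : ∀ k, SigmaFinite ((volume : Measure Ph).prod (pvol (τ k))) := fun k => inferInstance
  rw [ae_all_iff]
  intro k
  have key : ∀ σ : Shape, ∀ᵐ p ∂(pvol σ), gent σ p ∧ (stm σ p = t₀ → σ = .leaf) := by
    intro σ
    rcases σ with _ | ⟨a, b⟩
    · exact Eventually.of_forall fun p => ⟨trivial, fun _ => rfl⟩
    · have h1 : ∀ᵐ p : ND × (PD a × PD b) ∂(nvol.prod ((pvol a).prod (pvol b))), p.1.1 ≠ t₀ :=
        ae_time_ne (c := fun _ : PD a × PD b => t₀) measurable_const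
      filter_upwards [ae_gent (.node a b), h1] with p h2 h3
      exact ⟨h2, fun h4 => absurd h4 h3⟩
  have h1 : ∀ᵐ y : Ph × PD (τ k) ∂((volume : Measure Ph).prod (pvol (τ k))),
      gent (τ k) y.2 ∧ (stm (τ k) y.2 = t₀ → τ k = .leaf) :=
    Measure.quasiMeasurePreserving_snd.ae (key (τ k))
  exact ae_pi_one (μ := fun k => (volume : Measure Ph).prod (pvol (τ k))) k h1

/-- The leaves are in different places, for `ε = 0`. -/
theorem ae_zx_ne (hΦ : IsPotential Φ) (τ : Fin s → Shape) :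
    ∀ᵐ x ∂(mref τ), ∀ i j : Fin (nlv τ), i ≠ j → (zx Φ 0 τ x i).1 ≠ (zx Φ 0 τ x j).1 := by
  have hs : ∀ k, SigmaFinite ((volume : Measure Ph).prod (pvol (τ k))) := fun k => inferInstance
  -- one block
  have h1 : ∀ᵐ x ∂(mref τ), ∀ k, apt Φ (τ k) (x k).1.2 (x k).2 := by
    rw [ae_all_iff]
    intro k
    have hm : MeasurableSet {x : Ph × PD (τ k) | apt Φ (τ k) x.1.2 x.2} :=
      (by fun_prop : Measurable fun x : Ph × PD (τ k) => (x.1.2, x.2)) (measurableSet_apt hΦ (τ k))
    have h2 : ∀ᵐ x : Ph × PD (τ k) ∂((volume : Measure Ph).prod (pvol (τ k))),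
        apt Φ (τ k) x.1.2 x.2 := by
      rw [Measure.ae_prod_iff_ae_ae hm]
      exact Eventually.of_forall fun L => ae_apt hΦ (τ k) L.2
    exact ae_pi_one (μ := fun k => (volume : Measure Ph).prod (pvol (τ k))) k h2
  -- two blocks
  have h2 : ∀ᵐ x ∂(mref τ), ∀ k l, k ≠ l → ∀ (i : Fin (τ k).card) (j : Fin (τ l).card),
      (x k).1.1 + ps Φ (τ k) (x k).1.2 (x k).2 i ≠ (x l).1.1 + ps Φ (τ l) (x l).1.2 (x l).2 j := by
    rw [ae_all_iff]
    intro k
    rw [ae_all_iff]
    intro l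
    by_cases hkl : k = l
    · exact Eventually.of_forall fun x h => absurd hkl h
    · have h3 : ∀ (i : Fin (τ k).card) (j : Fin (τ l).card), ∀ᵐ x ∂(mref τ),
          (x k).1.1 + ps Φ (τ k) (x k).1.2 (x k).2 i ≠
            (x l).1.1 + ps Φ (τ l) (x l).1.2 (x l).2 j := by
        intro i j
        have h4 : Measurable fun z : Ph × PD (τ l) => z.1.1 + ps Φ (τ l) z.1.2 z.2 j :=
          (by fun_prop : Measurable fun z : Ph × PD (τ l) => z.1.1).add
            ((measurable_ps hΦ (τ l) j).comp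
              (by fun_prop : Measurable fun z : Ph × PD (τ l) => (z.1.2, z.2)))
        exact ae_pair_ne τ hkl (c := fun z => ps Φ (τ k) z.1 z.2 i) (measurable_ps hΦ (τ k) i)
          (d := fun z => z.1.1 + ps Φ (τ l) z.1.2 z.2 j) h4
      have h5 := ae_all_iff.2 fun i => ae_all_iff.2 fun j => h3 i j
      filter_upwards [h5] with x hx _
      exact hx
  filter_upwards [h1, h2] with x h3 h4 i j hij
  obtain ⟨⟨k, i⟩, rfl⟩ := finSigmaFinEquiv.surjective i
  obtain ⟨⟨l, j⟩, rfl⟩ := finSigmaFinEquiv.surjective j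
  have e : ∀ (k : Fin s) (i : Fin (τ k).card),
      (zx Φ 0 τ x (finSigmaFinEquiv ⟨k, i⟩)).1 = (x k).1.1 + ps Φ (τ k) (x k).1.2 (x k).2 i := by
    intro k i
    have h5 : zx Φ 0 τ x (finSigmaFinEquiv ⟨k, i⟩) = bkt Φ 0 τ x k i :=
      joinPi_apply (fun k => (τ k).card) (bkt Φ 0 τ x) k i
    rw [h5]
    unfold bkt
    rw [bk_zero_fst, add_comm]
  rw [e, e]
  by_cases hkl : k = l
  · subst hkl
    intro h6
    have h7 : i ≠ j := fun h => hij (by rw [h])
    exact h3 k i j h7 (add_left_cancel h6)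
  · exact h4 k l hkl i j

/-- **The leaves of almost every tuple are far from one another for small `ε`.** -/
theorem ae_PW (hΦ : IsPotential Φ) (τ : Fin s → Shape) :
    ∀ᵐ x ∂(mref τ), ∀ εs : ℕ → ℝ, (∀ n, 0 < εs n) → Tendsto εs atTop (𝓝 0) →
      ∀ᶠ n in atTop, PW (Cx (εs n)) (zx Φ (εs n) τ x) := by
  filter_upwards [ae_zx_ne hΦ τ] with x hx εs _ hε0
  have ht : ∀ i : Fin (nlv τ), Tendsto (fun n => (zx Φ (εs n) τ x i).1) atTop
      (𝓝 (zx Φ 0 τ x i).1) := by
    intro i
    obtain ⟨⟨k, i⟩, rfl⟩ := finSigmaFinEquiv.surjective i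
    have e : ∀ ε : ℝ, zx Φ ε τ x (finSigmaFinEquiv ⟨k, i⟩) =
        ldEquiv (τ k) (bk Φ ε (τ k) (x k).1 (x k).2) i := fun ε =>
      joinPi_apply (fun k => (τ k).card) (bkt Φ ε τ x) k i
    simp only [e]
    exact tendsto_bk_fst hε0 (τ k) (x k).2 (fun _ => rfl) tendsto_const_nhds i
  have h1 : ∀ i j : Fin (nlv τ), i ≠ j → ∀ᶠ n in atTop,
      Cx (εs n) (zx Φ (εs n) τ x i) (zx Φ (εs n) τ x j) := by
    intro i j hij
    have h2 : Tendsto (fun n => ‖(zx Φ (εs n) τ x i).1 - (zx Φ (εs n) τ x j).1‖) atTop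
        (𝓝 ‖(zx Φ 0 τ x i).1 - (zx Φ 0 τ x j).1‖) := ((ht i).sub (ht j)).norm
    have h3 : 0 < ‖(zx Φ 0 τ x i).1 - (zx Φ 0 τ x j).1‖ :=
      norm_pos_iff.2 (sub_ne_zero.2 (hx i j hij))
    filter_upwards [hε0.eventually_lt h2 h3] with n hn
    exact hn
  have h2 : ∀ᶠ n in atTop, ∀ i j : Fin (nlv τ), i ≠ j →
      Cx (εs n) (zx Φ (εs n) τ x i) (zx Φ (εs n) τ x j) := by
    rw [eventually_all]
    intro i
    rw [eventually_all]
    intro j
    by_cases hij : i = j
    · exact Eventually.of_forall fun n h => absurd hij h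
    · filter_upwards [h1 i j hij] with n hn _
      exact hn
  exact h2

end Vale.Agent.P119.END
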