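import Vale.Agent.P119.END.AliveGen
import Vale.Agent.P119.ML.GenSep

/-!
# P119, `AliveENN`: the kinetic part of genericity for the tuples (`helper860`)

* `ae_nev`: two lines never meet;
* `ae_self_mref`, `ae_apart_mref`: the trees of almost every tuple do not meet themselves and are
  apart.
-/

open MeasureTheory Set Filter Topology
open scoped ENNReal

noncomputable section

namespace Vale.Agent.P119.END

open GC M CTree KT ML

variable {Φ : E3 → ℝ} {ε : ℝ} {L s : ℕ} {t : ℝ} {f₀ : Ph → ℝ} {κ : ℝ}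

/-- Almost no two lines meet. -/
theorem ae_nev : ∀ᵐ z : Ph × Ph ∂((volume : Measure Ph).prod (volume : Measure Ph)),
    nev z.1 z.2 := by
  have hm : MeasurableSet {z : Ph × Ph | nev z.1 z.2} := measurableSet_nev
  have h0 : ((volume : Measure Ph).prod (volume : Measure Ph)) {z : Ph × Ph | nev z.1 z.2}ᶜ = 0 := by
    rw [Measure.prod_apply_symm hm.compl]
    have h1 : ∀ β : Ph, (volume : Measure Ph) ((fun α : Ph => (α, β)) ⁻¹'
        {z : Ph × Ph | nev z.1 z.2}ᶜ) = 0 := by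
      intro β
      have hm2 : MeasurableSet ((fun α : Ph => (α, β)) ⁻¹' {z : Ph × Ph | nev z.1 z.2}ᶜ) :=
        (by fun_prop : Measurable fun α : Ph => (α, β)) hm.compl
      have h2 : ((volume : Measure E3).prod (volume : Measure E3))
          ((fun α : Ph => (α, β)) ⁻¹' {z : Ph × Ph | nev z.1 z.2}ᶜ) = 0 := by
        rw [Measure.prod_apply_symm hm2]
        have h3 : ∀ v : E3, (volume : Measure E3) ((fun y : E3 => (y, v)) ⁻¹'
            ((fun α : Ph => (α, β)) ⁻¹' {z : Ph × Ph | nev z.1 z.2}ᶜ)) = 0 := by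
          intro v
          refine measure_mono_null ?_ (null_aff β.1 (v - β.2))
          intro y hy
          have hy' : ¬nev (y, v) β := hy
          unfold nev at hy'
          push Not at hy'
          obtain ⟨σ, hσ⟩ := hy'
          rw [meetAt_iff] at hσ
          rw [mem_aff]
          refine ⟨-σ, ?_⟩
          have h4 : y = β.1 + (y - β.1) := by abel
          have h5 : y - β.1 = -(σ • (v - β.2)) := eq_neg_of_add_eq_zero_left hσ
          rw [neg_smul, ← h5]
          exact h4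
        simp only [h3, lintegral_zero]
      exact h2
    simp only [h1, lintegral_zero]
  exact h0

/-- The trees of almost every tuple do not meet themselves. -/
theorem ae_self_mref (hΦ : IsPotential Φ) (τ : Fin s → Shape) :
    ∀ᵐ x ∂(mref τ), ∀ k, Ordr (τ k) (x k).2 → Self Φ (τ k) (x k).1 (x k).2 := by
  have hs : ∀ k, SigmaFinite ((volume : Measure Ph).prod (pvol (τ k))) := fun k => inferInstance
  rw [ae_all_iff]
  intro k
  have h1 : ∀ᵐ y : Ph × PD (τ k) ∂((volume : Measure Ph).prod (pvol (τ k))),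
      Ordr (τ k) y.2 → Self Φ (τ k) y.1 y.2 := by
    have m1 : MeasurableSet {y : Ph × PD (τ k) | Ordr (τ k) y.2} :=
      measurable_snd (measurableSet_ordr (τ k))
    have m2 : MeasurableSet {y : Ph × PD (τ k) | Self Φ (τ k) y.1 y.2} :=
      measurableSet_self hΦ (τ k)
    rw [Measure.ae_prod_iff_ae_ae (measurableSet_imp m1 m2)]
    exact Eventually.of_forall fun L => ae_self hΦ (τ k) L
  exact ae_pi_one (μ := fun k => (volume : Measure Ph).prod (pvol (τ k))) k h1

/-- A property of a product of two pairs. -/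
theorem ae_four {α β γ δ : Type*} [MeasurableSpace α] [MeasurableSpace β] [MeasurableSpace γ]
    [MeasurableSpace δ] {μa : Measure α} {μb : Measure β} {μc : Measure γ} {μd : Measure δ}
    [SFinite μa] [SFinite μb] [SFinite μc] [SFinite μd] {P : α → β → γ → δ → Prop}
    (hm : MeasurableSet {z : (α × β) × (γ × δ) | P z.1.1 z.1.2 z.2.1 z.2.2})
    (h : ∀ᵐ y ∂(μa.prod μc), ∀ᵐ z ∂(μb.prod μd), P y.1 z.1 y.2 z.2) :
    ∀ᵐ z ∂((μa.prod μb).prod (μc.prod μd)), P z.1.1 z.1.2 z.2.1 z.2.2 := by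
  have hmeas : Measurable fun w : (α × γ) × (β × δ) => ((w.1.1, w.2.1), (w.1.2, w.2.2)) := by
    fun_prop
  have hm1 : MeasurableSet {w : (α × γ) × (β × δ) | P w.1.1 w.2.1 w.1.2 w.2.2} := hmeas hm
  have h1 : ((μa.prod μc).prod (μb.prod μd)) {w | P w.1.1 w.2.1 w.1.2 w.2.2}ᶜ = 0 := by
    have h2 : ∀ᵐ w ∂((μa.prod μc).prod (μb.prod μd)), P w.1.1 w.2.1 w.1.2 w.2.2 := by
      rw [Measure.ae_prod_iff_ae_ae hm1]
      exact h
    exact h2
  have h3 : ((μa.prod μb).prod (μc.prod μd)) {z | P z.1.1 z.1.2 z.2.1 z.2.2}ᶜ = 0 := by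
    have e1 : ∫⁻ z, {z : (α × β) × (γ × δ) | P z.1.1 z.1.2 z.2.1 z.2.2}ᶜ.indicator 1 z
        ∂((μa.prod μb).prod (μc.prod μd)) = 0 := by
      have m1 : Measurable ({z : (α × β) × (γ × δ) | P z.1.1 z.1.2 z.2.1 z.2.2}ᶜ.indicator
        (1 : (α × β) × (γ × δ) → ℝ≥0∞)) := measurable_one.indicator hm.compl
      rw [lintegral_prod _ m1.aemeasurable]
      rw [lintegral_prod _ (by
        exact (m1.lintegral_prod_right' (ν := μc.prod μd)).aemeasurable)]
      have e2 : ∀ (x : α) (y : β), ∫⁻ z, {z : (α × β) × (γ × δ) |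
          P z.1.1 z.1.2 z.2.1 z.2.2}ᶜ.indicator (1 : (α × β) × (γ × δ) → ℝ≥0∞) ((x, y), z)
            ∂(μc.prod μd) = ∫⁻ c, ∫⁻ d, {z : (α × β) × (γ × δ) |
          P z.1.1 z.1.2 z.2.1 z.2.2}ᶜ.indicator (1 : (α × β) × (γ × δ) → ℝ≥0∞)
            ((x, y), (c, d)) ∂μd ∂μc := by
        intro x y
        exact lintegral_prod _ (m1.comp measurable_prodMk_left).aemeasurable
      simp only [e2]
      have e3 : ∀ x : α, ∫⁻ y, ∫⁻ c, ∫⁻ d, {z : (α × β) × (γ × δ) |
          P z.1.1 z.1.2 z.2.1 z.2.2}ᶜ.indicator (1 : (α × β) × (γ × δ) → ℝ≥0∞)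
            ((x, y), (c, d)) ∂μd ∂μc ∂μb = ∫⁻ c, ∫⁻ y, ∫⁻ d, {z : (α × β) × (γ × δ) |
          P z.1.1 z.1.2 z.2.1 z.2.2}ᶜ.indicator (1 : (α × β) × (γ × δ) → ℝ≥0∞)
            ((x, y), (c, d)) ∂μd ∂μb ∂μc := by
        intro x
        have m2 : Measurable fun w : (β × γ) × δ => {z : (α × β) × (γ × δ) |
          P z.1.1 z.1.2 z.2.1 z.2.2}ᶜ.indicator (1 : (α × β) × (γ × δ) → ℝ≥0∞)
            ((x, w.1.1), (w.1.2, w.2)) := m1.comp (by fun_prop)
        exact lintegral_lintegral_swap (m2.lintegral_prod_right' (ν := μd)).aemeasurable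
      simp only [e3]
      have m3 : Measurable fun w : (α × γ) × (β × δ) => {z : (α × β) × (γ × δ) |
          P z.1.1 z.1.2 z.2.1 z.2.2}ᶜ.indicator (1 : (α × β) × (γ × δ) → ℝ≥0∞)
            ((w.1.1, w.2.1), (w.1.2, w.2.2)) := m1.comp hmeas
      have e4 : ∫⁻ w, {z : (α × β) × (γ × δ) |
          P z.1.1 z.1.2 z.2.1 z.2.2}ᶜ.indicator (1 : (α × β) × (γ × δ) → ℝ≥0∞)
            ((w.1.1, w.2.1), (w.1.2, w.2.2)) ∂((μa.prod μc).prod (μb.prod μd)) = 0 := by
        have e5 : ∀ w : (α × γ) × (β × δ), {z : (α × β) × (γ × δ) |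
          P z.1.1 z.1.2 z.2.1 z.2.2}ᶜ.indicator (1 : (α × β) × (γ × δ) → ℝ≥0∞)
            ((w.1.1, w.2.1), (w.1.2, w.2.2)) =
            {w : (α × γ) × (β × δ) | P w.1.1 w.2.1 w.1.2 w.2.2}ᶜ.indicator 1 w := fun w => rfl
        simp only [e5]
        rw [lintegral_indicator_one hm1.compl]
        exact h1
      rw [lintegral_prod _ m3.aemeasurable] at e4
      rw [lintegral_prod _ (m3.lintegral_prod_right' (ν := μb.prod μd)).aemeasurable] at e4
      rw [← e4]
      refine lintegral_congr fun x => lintegral_congr fun c => ?_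
      have m4 : Measurable fun w : β × δ => {z : (α × β) × (γ × δ) |
          P z.1.1 z.1.2 z.2.1 z.2.2}ᶜ.indicator (1 : (α × β) × (γ × δ) → ℝ≥0∞)
            ((x, w.1), (c, w.2)) := m1.comp (by fun_prop)
      exact (lintegral_prod _ m4.aemeasurable).symm
    rw [lintegral_indicator_one hm.compl] at e1
    exact e1
  exact h3

/-- The trees of almost every tuple are apart. -/
theorem ae_apart_mref (hΦ : IsPotential Φ) (τ : Fin s → Shape) (T : ℝ) :
    ∀ᵐ x ∂(mref τ), ∀ k l, k ≠ l → Bef T (τ k) (x k).2 → Bef T (τ l) (x l).2 →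
      Apart Φ T (τ k) (x k).1 (x k).2 (τ l) (x l).1 (x l).2 := by
  have hs : ∀ k, SigmaFinite ((volume : Measure Ph).prod (pvol (τ k))) := fun k => inferInstance
  rw [ae_all_iff]
  intro k
  rw [ae_all_iff]
  intro l
  by_cases hkl : k = l
  · exact Eventually.of_forall fun x h => absurd hkl h
  · have m1 : MeasurableSet {z : (Ph × PD (τ k)) × (Ph × PD (τ l)) | Bef T (τ k) z.1.2} :=
      (by fun_prop : Measurable fun z : (Ph × PD (τ k)) × (Ph × PD (τ l)) => (T, z.1.2))
        (measurableSet_bef (τ k))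
    have m2 : MeasurableSet {z : (Ph × PD (τ k)) × (Ph × PD (τ l)) | Bef T (τ l) z.2.2} :=
      (by fun_prop : Measurable fun z : (Ph × PD (τ k)) × (Ph × PD (τ l)) => (T, z.2.2))
        (measurableSet_bef (τ l))
    have m3 : MeasurableSet {z : (Ph × PD (τ k)) × (Ph × PD (τ l)) |
        Apart Φ T (τ k) z.1.1 z.1.2 (τ l) z.2.1 z.2.2} :=
      (by fun_prop : Measurable fun z : (Ph × PD (τ k)) × (Ph × PD (τ l)) => (T, z.1, z.2))
        (KT.measurableSet_apart hΦ (τ k) (τ l))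
    have hm := measurableSet_imp m1 (measurableSet_imp m2 m3)
    have key : ∀ᵐ z ∂(((volume : Measure Ph).prod (pvol (τ k))).prod
        ((volume : Measure Ph).prod (pvol (τ l)))), Bef T (τ k) z.1.2 → Bef T (τ l) z.2.2 →
          Apart Φ T (τ k) z.1.1 z.1.2 (τ l) z.2.1 z.2.2 := by
      refine ae_four (P := fun a b c d => Bef T (τ k) b → Bef T (τ l) d →
          Apart Φ T (τ k) a b (τ l) c d) hm ?_
      filter_upwards [ae_nev] with y hy
      exact ae_apart hΦ (τ k) (τ l) hy.nm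
    have h1 := ae_pi_pair (μ := fun k => (volume : Measure Ph).prod (pvol (τ k))) hkl
      (P := fun z => Bef T (τ k) z.1.2 → Bef T (τ l) z.2.2 →
          Apart Φ T (τ k) z.1.1 z.1.2 (τ l) z.2.1 z.2.2) hm key
    filter_upwards [h1] with x hx _
    exact hx

end Vale.Agent.P119.END
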