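import Vale.Agent.P119.END.AliveGen2
import Vale.Agent.P119.KT.GenHit

/-!
# P119, `AliveENN`: almost every tuple of trees is a generic forest (`helper860`)

* `ae_Gen`: the germs of almost every tuple of trees form a generic forest;
* `sepR_of_sep`, `Gen.hsep`, `Gen.ordF`, `Gen.goodF`: the hypotheses of `conv_forest`.
-/

open MeasureTheory Set Filter Topology
open scoped ENNReal

noncomputable section

namespace Vale.Agent.P119.END

open GC M CTree KT ML

variable {Φ : E3 → ℝ} {ε : ℝ} {L s : ℕ} {t : ℝ} {f₀ : Ph → ℝ} {κ : ℝ}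

theorem ae_wne_mref (hΦ : IsPotential Φ) (τ : Fin s → Shape) :
    ∀ᵐ x ∂(mref τ), ∀ k, WNe Φ (τ k) (x k).1.2 (x k).2 := by
  have hs : ∀ k, SigmaFinite ((volume : Measure Ph).prod (pvol (τ k))) := fun k => inferInstance
  rw [ae_all_iff]
  intro k
  have hm : MeasurableSet {x : Ph × PD (τ k) | WNe Φ (τ k) x.1.2 x.2} :=
    (by fun_prop : Measurable fun x : Ph × PD (τ k) => (x.1.2, x.2)) (measurableSet_WNe hΦ (τ k))
  have h2 : ∀ᵐ x : Ph × PD (τ k) ∂((volume : Measure Ph).prod (pvol (τ k))),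
      WNe Φ (τ k) x.1.2 x.2 := by
    rw [Measure.ae_prod_iff_ae_ae hm]
    exact Eventually.of_forall fun L => ae_WNe hΦ (τ k) L.2
  exact ae_pi_one (μ := fun k => (volume : Measure Ph).prod (pvol (τ k))) k h2

theorem bef_mono {T T' : ℝ} (hT : T ≤ T') : ∀ {τ : Shape} {p : PD τ}, Bef T τ p → Bef T' τ p
  | .leaf, _, _ => trivial
  | .node _ _, _, h => ⟨h.1.trans_le hT, bef_mono hT h.2.1, bef_mono hT h.2.2⟩

theorem exists_bef : ∀ (τ : Shape) (p : PD τ), ∃ T : ℝ, Bef T τ p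
  | .leaf, _ => ⟨0, trivial⟩
  | .node a b, p => by
    obtain ⟨T₁, h1⟩ := exists_bef a p.2.1
    obtain ⟨T₂, h2⟩ := exists_bef b p.2.2
    exact ⟨max (p.1.1 + 1) (max T₁ T₂), (lt_add_one _).trans_le (le_max_left _ _),
      bef_mono ((le_max_left _ _).trans (le_max_right _ _)) h1,
      bef_mono ((le_max_right _ _).trans (le_max_right _ _)) h2⟩

/-- **The germs of almost every tuple of trees form a generic forest.** -/
theorem ae_Gen (hΦ : IsPotential Φ) (τ : Fin s → Shape) (hτ : ∀ k, (τ k).depth ≤ L) :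
    ∀ᵐ x ∂(mref τ), (∀ k, good Φ (τ k) (x k).1.2 (x k).2) → (∀ k, Tord (τ k) (x k).2) →
      ∀ t, 0 < t → Gen Φ L (germs τ x) t := by
  have h3 := ae_all_iff.2 fun n : ℕ => ae_apart_mref hΦ τ (n : ℝ)
  filter_upwards [ae_self_mref hΦ τ, ae_wne_mref hΦ τ, h3] with x hself hwne hap hg ht t ht0
  refine ⟨ht0, ?_, ?_⟩
  · intro G hG
    unfold germs at hG
    rw [List.mem_ofFn] at hG
    obtain ⟨k, rfl⟩ := hG
    exact ⟨hg k, ht k, hself k (ht k).ordr, hwne k, hτ k⟩
  · unfold germs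
    rw [List.pairwise_ofFn]
    intro k l hkl
    obtain ⟨T₁, h1⟩ := exists_bef (τ k) (x k).2
    obtain ⟨T₂, h2⟩ := exists_bef (τ l) (x l).2
    obtain ⟨n, hn⟩ := exists_nat_gt (max t (max T₁ T₂))
    have e1 : t < n := (le_max_left _ _).trans_lt hn
    have e2 : T₁ ≤ n := ((le_max_left _ _).trans (le_max_right _ _)).trans hn.le
    have e3 : T₂ ≤ n := ((le_max_right _ _).trans (le_max_right _ _)).trans hn.le
    exact PairG.of_lt (ApT.of_apartG (hap n k l hkl.ne (bef_mono e2 h1) (bef_mono e3 h2))) e1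

end Vale.Agent.P119.END

namespace Vale.Agent.P119.ML

open KU M CTree GC KT

variable {Φ : E3 → ℝ} {ε : ℝ} {L : ℕ} {t : ℝ}

theorem sepR_of_sep {x y : LG × ℝ × ℝ} (h : Sep t x y) : sepR t x y := by
  unfold sepR
  have hne : ∀ a : ℝ, ∀ᵐ s : ℝ, s ≠ a := by
    intro a
    have := measure_singleton (μ := (volume : Measure ℝ)) a
    exact measure_eq_zero_iff_ae_notMem.1 this
  filter_upwards [hne x.2.1, hne x.2.2, hne y.2.1, hne y.2.2] with s a1 a2 a3 a4 h1 h2 h3 h4 h5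
  exact h s (lt_of_le_of_ne h2 a1.symm) (lt_of_le_of_ne h3 a2) (lt_of_le_of_ne h4 a3.symm)
    (lt_of_le_of_ne h5 a4) h1

/-- The hypothesis `hsep` of `conv_forest`. -/
theorem _root_.Vale.Agent.P119.KT.Gen.hsep {F : List TG} (h : Gen Φ L F t) :
    (flegs Φ F t).Pairwise (sepR t) := h.legs_sep.imp sepR_of_sep

/-- The hypothesis `hgood` of `conv_forest`. -/
theorem _root_.Vale.Agent.P119.KT.Gen.goodF {F : List TG} (h : Gen Φ L F t) : GoodF Φ F :=
  fun G hG => (h.one G hG).good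

end Vale.Agent.P119.ML
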