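import Vale.Agent.P119.END.AliveRed
import Vale.Agent.P119.KE.Shapes

/-!
# P119, `AliveENN`: the kinetic tuples in the backward parameters (`helper576`)

`lintegral_uK`: the integral of a test function against `∏ u(t, z_k)` as a sum over tuples of shapes of
integrals over the backward parameters.
-/

open MeasureTheory Set Filter Topology
open scoped ENNReal

noncomputable section

namespace Vale.Agent.P119.END

open GC M CTree KT ML KE

variable {Φ : E3 → ℝ} {ε : ℝ} {L s : ℕ} {t : ℝ} {f₀ : Ph → ℝ} {κ : ℝ}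

/-- Integration of the parameters of the nodes. -/
theorem lintegral_fst_prod (τ : Fin s → Shape) {g : ∀ k, Ph × PD (τ k) → ℝ≥0∞}
    (hg : ∀ k, Measurable (g k)) (hgt : ∀ k x, g k x ≠ ∞)
    (hG : ∀ k l, ∫⁻ p, g k (l, p) ∂pvol (τ k) ≠ ∞) {a : (Fin s → Ph) → ℝ≥0∞} (ha : Measurable a) :
    ∫⁻ y, a y * ∏ k, ∫⁻ p, g k (y k, p) ∂pvol (τ k) ∂(Measure.pi fun _ => (volume : Measure Ph)) =
      ∫⁻ x, a (fun k => (x k).1) * ∏ k, g k (x k) ∂(mref τ) := by
  set G : ∀ _ : Fin s, Ph → ℝ≥0∞ := fun k l => ∫⁻ p, g k (l, p) ∂pvol (τ k) with hGdef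
  have hGm : ∀ k, Measurable (G k) := fun k => (hg k).lintegral_prod_right'
  have hsv : ∀ k, SigmaFinite ((volume : Measure Ph).prod (pvol (τ k))) := fun k => inferInstance
  have hfst : ∀ k : Fin s, Measurable (fun x : Ph × PD (τ k) => x.1) := fun k => measurable_fst
  have key : ∀ k, (((volume : Measure Ph).prod (pvol (τ k))).withDensity (g k)).map
      (fun x : Ph × PD (τ k) => x.1) = (volume : Measure Ph).withDensity (G k) := by
    intro k
    refine Measure.ext_of_lintegral _ fun H hH => ?_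
    have hH' : Measurable fun x : Ph × PD (τ k) => H x.1 := hH.comp measurable_fst
    have hm : Measurable fun x : Ph × PD (τ k) =>
        (g k * fun x : Ph × PD (τ k) => H x.1) x := (hg k).mul hH'
    rw [lintegral_map hH (hfst k), lintegral_withDensity_eq_lintegral_mul _ (hg k) hH',
      lintegral_prod _ hm.aemeasurable, lintegral_withDensity_eq_lintegral_mul _ (hGm k) hH]
    refine lintegral_congr fun l => ?_
    simp only [Pi.mul_apply]
    have hgl : Measurable fun p => g k (l, p) := (hg k).comp measurable_prodMk_left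
    rw [lintegral_mul_const _ hgl]
  have hsf : ∀ k, SigmaFinite ((((volume : Measure Ph).prod (pvol (τ k))).withDensity
      (g k)).map (fun x : Ph × PD (τ k) => x.1)) := fun k => by
    rw [key k]
    exact SigmaFinite.withDensity_of_ne_top' (hG k)
  have hPG : Measurable fun y : Fin s → Ph => ∏ k, G k (y k) :=
    Finset.measurable_prod _ fun k _ => (hGm k).comp (measurable_pi_apply k)
  have hPg : Measurable fun x : ∀ k, Ph × PD (τ k) => ∏ k, g k (x k) :=
    Finset.measurable_prod _ fun k _ => (hg k).comp (measurable_pi_apply k)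
  have hm' : Measurable fun (x : ∀ k, Ph × PD (τ k)) k => (x k).1 :=
    measurable_pi_iff.2 fun k => measurable_fst.comp (measurable_pi_apply k)
  have ha' : Measurable fun x : ∀ k, Ph × PD (τ k) => a fun k => (x k).1 := ha.comp hm'
  have e1 : ∫⁻ y, a y * ∏ k, G k (y k) ∂(Measure.pi fun _ => (volume : Measure Ph)) =
      ∫⁻ y, a y ∂(Measure.pi fun k => (volume : Measure Ph).withDensity (G k)) := by
    rw [pi_withDensity' hGm (fun k l => hG k l), lintegral_withDensity_eq_lintegral_mul _ hPG ha]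
    refine lintegral_congr fun y => ?_
    rw [Pi.mul_apply, mul_comm]
  have e2 : (Measure.pi fun k => (volume : Measure Ph).withDensity (G k)) =
      (Measure.pi fun k => ((volume : Measure Ph).prod (pvol (τ k))).withDensity (g k)).map
        (fun (x : ∀ k, Ph × PD (τ k)) k => (x k).1) := by
    have h1 := Measure.pi_map_pi (μ := fun k => ((volume : Measure Ph).prod
      (pvol (τ k))).withDensity (g k)) (f := fun k (x : Ph × PD (τ k)) => x.1)
      (fun k => (hfst k).aemeasurable)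
    rw [h1]
    congr 1
    funext k
    exact (key k).symm
  rw [e1, e2, lintegral_map ha hm', pi_withDensity' hg hgt,
    lintegral_withDensity_eq_lintegral_mul _ hPg ha']
  refine lintegral_congr fun x => ?_
  rw [Pi.mul_apply, mul_comm]

variable {hΦ : IsPotential Φ} {m₀ : Measurable fun p : E3 × E3 => K1.f0hat f₀ p.1 p.2} {T : ℝ}
  {f : ℝ → Ph → ℝ} (K : KinFamily hΦ f₀ m₀ T f)

/-- The integrand of the kinetic trees. -/
def kk (L : ℕ) (τ : Shape) (t : ℝ) (x : Ph × PD τ) : ℝ≥0∞ :=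
  kw Φ (K.leg L) (gE f₀) τ t x.1 x.2

theorem measurable_leg (L : ℕ) : Measurable fun x : ℝ × ℝ × Ph => K.leg L x.1 x.2.1 x.2.2 :=
  measurable_dlg _ (K.u (L + 1)).2

theorem measurable_kk (hgm : Measurable (gE f₀)) (L : ℕ) (τ : Shape) (t : ℝ) :
    Measurable (kk K L τ t) := by
  have h := measurable_kw hΦ (measurable_leg K L) hgm τ
  have h2 : Measurable fun x : Ph × PD τ => ((t, x.1, x.2) : ℝ × Ph × PD τ) := by fun_prop
  exact h.comp h2

theorem lintegral_kk (L : ℕ) (τ : Shape) (t : ℝ) (l : Ph) :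
    ∫⁻ p, kk K L τ t (l, p) ∂pvol τ = K.kd L τ t l := rfl

theorem leg_le_one (L : ℕ) (a b : ℝ) (l : Ph) : K.leg L a b l ≤ 1 := by
  unfold KinFamily.leg dlg
  exact en_le_one _

theorem leafW_ne_top {g : Ph → ℝ≥0∞} (hg : ∀ z, g z ≠ ∞) :
    ∀ (τ : Shape) (z : LD τ), leafW g τ z ≠ ∞
  | .leaf, z => hg z
  | .node a b, z => ENNReal.mul_ne_top (leafW_ne_top hg a z.1) (leafW_ne_top hg b z.2)

theorem legW_le_one {lg : ℝ → ℝ → Ph → ℝ≥0∞} (h : ∀ s t l, lg s t l ≤ 1) :
    ∀ (τ : Shape) (t : ℝ) (l : Ph) (p : PD τ), legW Φ lg τ t l p ≤ 1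
  | .leaf, t, l, _ => h 0 t l
  | .node a b, t, l, p => by
    have ha := legW_le_one h a p.1.1 (inLines Φ 0 l p.1).1 p.2.1
    have hb := legW_le_one h b p.1.1 (inLines Φ 0 l p.1).2 p.2.2
    exact mul_le_one' (h _ _ _) (mul_le_one' ha hb)

/-- The weight of a shape without the legs and the order. -/
def kw0 (Φ : E3 → ℝ) (f₀ : Ph → ℝ) (τ : Shape) (x : Ph × PD τ) : ℝ≥0∞ :=
  KT.wt Φ τ x.1.2 x.2 * leafW (gE f₀) τ (bk Φ 0 τ x.1 x.2)

theorem kk_eq (L : ℕ) (τ : Shape) (t : ℝ) (x : Ph × PD τ) : kk K L τ t x =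
    ind (ordd τ t x.2) * (kw0 Φ f₀ τ x * legW Φ (K.leg L) τ t x.1 x.2) := by
  unfold kk
  rw [kw_eq]
  unfold kw0
  by_cases h : ordd τ t x.2
  · rw [if_pos h, ind_of_true h, mul_assoc]
  · rw [if_neg h, ind_of_false h, zero_mul, zero_mul]

theorem kw0_ne_top (τ : Shape) (x : Ph × PD τ) : kw0 Φ f₀ τ x ≠ ∞ :=
  ENNReal.mul_ne_top (KT.wt_ne_top τ _ _) (leafW_ne_top (fun z => gE_ne_top z) τ _)

theorem kk_le (L : ℕ) (τ : Shape) (t : ℝ) (x : Ph × PD τ) : kk K L τ t x ≤
    ind (ordd τ t x.2) * kw0 Φ f₀ τ x := by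
  rw [kk_eq]
  gcongr
  exact mul_le_of_le_one_right' (legW_le_one (fun s t l => leg_le_one K L s t l) τ t _ _)

theorem kk_ne_top (L : ℕ) (τ : Shape) (t : ℝ) (x : Ph × PD τ) : kk K L τ t x ≠ ∞ :=
  ne_top_of_le_ne_top (ENNReal.mul_ne_top (ind_ne_top _) (kw0_ne_top τ x)) (kk_le K L τ t x)

theorem free_preserving_pi (s : ℕ) (t : ℝ) :
    MeasurePreserving (fun (y : Fin s → Ph) k => KU.free t (y k)) volume volume := by
  have h := measurePreserving_pi (fun _ : Fin s => (volume : Measure Ph))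
    (fun _ : Fin s => (volume : Measure Ph)) (f := fun _ => KU.free t)
    (fun _ => KU.free_preserving t)
  exact h

/-- **The kinetic tuples in the backward parameters.** -/
theorem lintegral_uK (hgm : Measurable (gE f₀)) {L : ℕ} (hL : K.L₀ ≤ L + 1) {t : ℝ}
    (ht : t ∈ Icc 0 T) {a : (Fin s → Ph) → ℝ≥0∞} (ha : Measurable a) :
    ∫⁻ z, a z * ∏ k, uK K L t (z k) =
      ∑ τ ∈ Fintype.piFinset (fun _ : Fin s => shapes L),
        ∫⁻ x, a (fun k => KU.free t (x k).1) * ∏ k, kk K L (τ k) t (x k) ∂(mref τ) := by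
  have hf : Measurable (KU.free t) := (KU.free_preserving t).measurable
  have hum : Measurable fun z : Ph => uK K L t z :=
    (K.u (L + 1)).2.comp measurable_const measurable_fst measurable_snd
  have hfp : Measurable fun (y : Fin s → Ph) k => KU.free t (y k) :=
    measurable_pi_iff.2 fun k => hf.comp (measurable_pi_apply k)
  have hm : Measurable fun z : Fin s → Ph => a z * ∏ k, uK K L t (z k) :=
    ha.mul (Finset.measurable_prod _ fun k _ => hum.comp (measurable_pi_apply k))
  rw [← (free_preserving_pi s t).lintegral_comp hm]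
  have e1 : ∀ y : Fin s → Ph, a (fun k => KU.free t (y k)) * ∏ k, uK K L t (KU.free t (y k)) =
      ∑ τ ∈ Fintype.piFinset (fun _ : Fin s => shapes L),
        a (fun k => KU.free t (y k)) * ∏ k, ∫⁻ p, kk K L (τ k) t (y k, p) ∂pvol (τ k) := by
    intro y
    rw [← Finset.mul_sum]
    congr 1
    have e2 : ∀ k, uK K L t (KU.free t (y k)) = ∑ τ ∈ shapes L, K.kd L τ t (y k) := fun k =>
      (K.sum_kd_self hL ht (y k)).symm
    simp only [e2]
    rw [Finset.prod_univ_sum]
    rfl
  simp only [e1]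
  have hg : ∀ τ : Shape, Measurable (kk K L τ t) := fun τ => measurable_kk K hgm L τ t
  have haf : Measurable fun y : Fin s → Ph => a (fun k => KU.free t (y k)) := ha.comp hfp
  rw [lintegral_finsetSum]
  · refine Finset.sum_congr rfl fun τ hτ => ?_
    refine lintegral_fst_prod τ (g := fun k => kk K L (τ k) t) (fun k => hg (τ k))
      (fun k x => kk_ne_top K L (τ k) t x) (fun k l => ?_)
      (a := fun y => a (fun k => KU.free t (y k))) haf
    have h1 := K.sum_kd_le hL L ht l
    have h2 : K.kd L (τ k) t l ≤ ∑ τ ∈ shapes L, K.kd L τ t l :=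
      Finset.single_le_sum (f := fun τ => K.kd L τ t l) (fun _ _ => zero_le)
        (Fintype.mem_piFinset.1 hτ k)
    exact ne_top_of_le_ne_top (gs_lt_top _ _ _).ne (h2.trans h1)
  · intro τ _
    refine haf.mul (Finset.measurable_prod _ fun k _ => ?_)
    exact (hg (τ k)).lintegral_prod_right'.comp (measurable_pi_apply k)

end Vale.Agent.P119.END
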