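import Mathlib

/-!
# P119: products of measures on dependent families (`helper576`)

* `lintegral_pi_prod`: Tonelli for products of functions of one coordinate;
* `pi_withDensity'`: products of measures with densities;
* `joinPi`: `(∀ k, Fin (n k) → α)` and `Fin (∑ k, n k) → α`.
-/

open MeasureTheory Set Filter Topology
open scoped ENNReal

namespace Vale.Agent.P119.END

set_option backward.isDefEq.respectTransparency false in
/-- Tonelli for products of functions of one coordinate. -/
theorem lintegral_pi_prod {n : ℕ} {E : Fin n → Type*} {mE : ∀ i, MeasurableSpace (E i)}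
    {μ : (i : Fin n) → Measure (E i)} [∀ i, SigmaFinite (μ i)] {f : (i : Fin n) → E i → ℝ≥0∞}
    (hf : ∀ i, Measurable (f i)) :
    ∫⁻ x : (i : Fin n) → E i, ∏ i, f i (x i) ∂(Measure.pi μ) = ∏ i, ∫⁻ x, f i x ∂(μ i) := by
  induction n with
  | zero =>
    simp
  | succ n ih =>
    have h1 : Measurable fun x : (i : Fin n) → E (Fin.succ i) =>
        ∏ i : Fin n, f (Fin.succ i) (x i) :=
      Finset.measurable_prod _ fun i _ => (hf _).comp (measurable_pi_apply i)
    calc ∫⁻ x : (i : Fin (n + 1)) → E i, ∏ i, f i (x i) ∂(Measure.pi μ)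
        = ∫⁻ x : E 0 × ((i : Fin n) → E (Fin.succ i)),
            f 0 x.1 * ∏ i : Fin n, f (Fin.succ i) (x.2 i)
            ∂((μ 0).prod (Measure.pi (fun i ↦ μ i.succ))) := by
          rw [← ((measurePreserving_piFinSuccAbove μ 0).symm).lintegral_comp_emb
            (MeasurableEquiv.measurableEmbedding _)]
          simp_rw [MeasurableEquiv.piFinSuccAbove_symm_apply, Fin.insertNthEquiv,
            Fin.prod_univ_succ, Fin.insertNth_zero, Equiv.coe_fn_mk, Fin.cons_succ,
            Fin.zero_succAbove, cast_eq, Fin.cons_zero]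
      _ = (∫⁻ x, f 0 x ∂μ 0) * ∏ i : Fin n, ∫⁻ (x : E (Fin.succ i)), f (Fin.succ i) x ∂(μ i.succ) := by
          rw [← ih (fun i => hf _), lintegral_prod_mul (hf 0).aemeasurable h1.aemeasurable]
      _ = ∏ i, ∫⁻ x, f i x ∂(μ i) := by rw [Fin.prod_univ_succ]

/-- Products of measures with densities. -/
theorem pi_withDensity' {n : ℕ} {E : Fin n → Type*} {mE : ∀ i, MeasurableSpace (E i)}
    {μ : (i : Fin n) → Measure (E i)} [∀ i, SigmaFinite (μ i)] {f : (i : Fin n) → E i → ℝ≥0∞}
    (hf : ∀ i, Measurable (f i)) (hf' : ∀ i x, f i x ≠ ∞) :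
    (Measure.pi fun i => (μ i).withDensity (f i)) =
      (Measure.pi μ).withDensity fun x => ∏ i, f i (x i) := by
  have hs : ∀ i, SigmaFinite ((μ i).withDensity (f i)) := fun i =>
    SigmaFinite.withDensity_of_ne_top' (hf' i)
  refine Measure.pi_eq fun s hs => ?_
  rw [withDensity_apply _ (MeasurableSet.univ_pi hs), ← lintegral_indicator (MeasurableSet.univ_pi hs)]
  have h1 : ∀ x : (i : Fin n) → E i, (Set.univ.pi s).indicator (fun x => ∏ i, f i (x i)) x =
      ∏ i, (s i).indicator (f i) (x i) := by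
    intro x
    by_cases h : ∀ i, x i ∈ s i
    · rw [indicator_of_mem (show x ∈ Set.univ.pi s from fun i _ => h i)]
      exact Finset.prod_congr rfl fun i _ => (indicator_of_mem (h i) _).symm
    · rw [indicator_of_notMem (show x ∉ Set.univ.pi s from fun h' => h fun i => h' i (mem_univ i))]
      push Not at h
      obtain ⟨i, hi⟩ := h
      exact (Finset.prod_eq_zero (Finset.mem_univ i) (indicator_of_notMem hi _)).symm
  simp_rw [h1]
  rw [lintegral_pi_prod fun i => (hf i).indicator (hs i)]
  refine Finset.prod_congr rfl fun i _ => ?_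
  rw [lintegral_indicator (hs i), withDensity_apply _ (hs i)]

/-- Join of families of tuples. -/
def joinPi {α : Type*} {s : ℕ} (n : Fin s → ℕ) (y : ∀ k, Fin (n k) → α) :
    Fin (∑ k, n k) → α := fun j =>
  y (finSigmaFinEquiv.symm j).1 (finSigmaFinEquiv.symm j).2

theorem joinPi_apply {α : Type*} {s : ℕ} (n : Fin s → ℕ) (y : ∀ k, Fin (n k) → α) (k : Fin s)
    (i : Fin (n k)) : joinPi n y (finSigmaFinEquiv ⟨k, i⟩) = y k i := by
  unfold joinPi
  rw [Equiv.symm_apply_apply]

theorem measurable_joinPi {α : Type*} [MeasurableSpace α] {s : ℕ} (n : Fin s → ℕ) :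
    Measurable (joinPi (α := α) n) := by
  refine measurable_pi_iff.2 fun j => ?_
  exact (measurable_pi_apply _).comp (measurable_pi_apply _)

theorem joinPi_preserving {α : Type*} [MeasurableSpace α] {s : ℕ} (n : Fin s → ℕ)
    (ν : Measure α) [SigmaFinite ν] :
    MeasurePreserving (joinPi n) (Measure.pi fun k : Fin s => Measure.pi fun _ : Fin (n k) => ν)
      (Measure.pi fun _ : Fin (∑ k, n k) => ν) := by
  refine ⟨measurable_joinPi n, (Measure.pi_eq fun A hA => ?_).symm⟩
  rw [Measure.map_apply (measurable_joinPi n) (MeasurableSet.univ_pi hA)]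
  have h1 : joinPi n ⁻¹' (Set.univ.pi A) =
      Set.univ.pi fun k => Set.univ.pi fun i => A (finSigmaFinEquiv ⟨k, i⟩) := by
    ext y
    simp only [mem_preimage, mem_univ_pi]
    constructor
    · intro h k i
      have := h (finSigmaFinEquiv ⟨k, i⟩)
      rwa [joinPi_apply] at this
    · intro h j
      obtain ⟨⟨k, i⟩, rfl⟩ := finSigmaFinEquiv.surjective j
      rw [joinPi_apply]
      exact h k i
  rw [h1, Measure.pi_pi]
  simp_rw [Measure.pi_pi]
  rw [← Equiv.prod_comp finSigmaFinEquiv (fun j => ν (A j)), Fintype.prod_sigma]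

end Vale.Agent.P119.END
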