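import Vale.Agent.P119.END.AliveTuple
import Vale.Agent.P119.END.PiAux
import Vale.Agent.P119.KT.HitConv
import Vale.Agent.P119.ML.Germ
import Vale.Agent.P119.ML.FH2
import Vale.Agent.P119.FL.Mass

/-!
# P119, `AliveENN`: tuples of trees in the backward parameters (`helper576`)

* `tw`: the weight of a tree; `lintegral_inten_ok`: the law of the leaves of one tree;
* `lintegral_tuple`: the law of the leaves of a tuple of trees.
-/

open MeasureTheory Set Filter Topology
open scoped ENNReal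

noncomputable section

namespace Vale.Agent.P119.END

open GC M CTree KT

variable {Φ : E3 → ℝ} {ε : ℝ} {L s : ℕ} {t : ℝ} {f₀ : Ph → ℝ} {κ : ℝ}

/-- The datum with values in `[0, ∞]`. -/
def gE (f₀ : Ph → ℝ) (z : Ph) : ℝ≥0∞ := ENNReal.ofReal (f₀ z)

/-- The weight of a tree in the backward parameters. -/
def tw (Φ : E3 → ℝ) (ε : ℝ) (g : Ph → ℝ≥0∞) (τ : Shape) (x : Ph × PD τ) : ℝ≥0∞ :=
  KT.wt Φ τ x.1.2 x.2 * {x : Ph × PD τ | tok Φ ε τ x.1.2 x.2}.indicator
    (fun x => lprod g τ (bk Φ ε τ x.1 x.2)) x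

theorem measurableSet_tok' (hΦ : IsPotential Φ) (ε : ℝ) (τ : Shape) :
    MeasurableSet {x : Ph × PD τ | tok Φ ε τ x.1.2 x.2} := by
  have h : Measurable fun x : Ph × PD τ => (x.1.2, x.2) := by fun_prop
  exact h (measurableSet_tok hΦ ε τ)

theorem measurable_tw (hΦ : IsPotential Φ) (ε : ℝ) {g : Ph → ℝ≥0∞} (hg : Measurable g)
    (τ : Shape) : Measurable (tw Φ ε g τ) := by
  have h : Measurable fun x : Ph × PD τ => (x.1.2, x.2) := by fun_prop
  exact ((KT.measurable_wt hΦ τ).comp h).mul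
    (((measurable_lprod hg τ).comp (measurable_bk hΦ ε τ)).indicator (measurableSet_tok' hΦ ε τ))

theorem tw_ne_top {g : Ph → ℝ≥0∞} (hg : ∀ z, g z ≠ ∞) (τ : Shape) (x : Ph × PD τ) :
    tw Φ ε g τ x ≠ ∞ := by
  unfold tw
  refine ENNReal.mul_ne_top (KT.wt_ne_top τ _ _) ?_
  by_cases h : x ∈ {x : Ph × PD τ | tok Φ ε τ x.1.2 x.2}
  · rw [indicator_of_mem h]; exact lprod_ne_top hg τ _
  · rw [indicator_of_notMem h]; exact ENNReal.zero_ne_top

theorem mu_mul (hε : 0 < ε) : ENNReal.ofReal (mu ε) * ENNReal.ofReal (ε ^ 2) = 1 :=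
  FL.muE_mul hε

theorem mu_pow_mul (hε : 0 < ε) {n : ℕ} (hn : 0 < n) :
    ENNReal.ofReal (mu ε) ^ n * ENNReal.ofReal (ε ^ 2) ^ (n - 1) = ENNReal.ofReal (mu ε) := by
  obtain ⟨m, rfl⟩ : ∃ m, n = m + 1 := ⟨n - 1, by omega⟩
  rw [Nat.add_sub_cancel, pow_succ, mul_right_comm, ← mul_pow, mu_mul hε, one_pow, one_mul]

theorem measurable_gE (h : GoodDatum f₀ κ) : Measurable (gE f₀) := h.meas.ennreal_ofReal

theorem gE_ne_top (z : Ph) : gE f₀ z ≠ ∞ := ENNReal.ofReal_ne_top

/-- The law of the leaves of a tree. -/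
theorem lintegral_inten_ok (hΦ : IsPotential Φ) (h : GoodDatum f₀ κ) (hε : 0 < ε) (τ : Shape)
    {F : (Fin τ.card → Ph) → ℝ≥0∞} (hF : Measurable F) :
    ∫⁻ z, {z | ok Φ ε (τ.ord z)}.indicator F z
        ∂(Measure.pi fun _ : Fin τ.card => inten f₀ ε) =
      ENNReal.ofReal (mu ε) * ∫⁻ x, tw Φ ε (gE f₀) τ x *
        F (ldEquiv τ (bk Φ ε τ x.1 x.2)) ∂((volume : Measure Ph).prod (pvol τ)) := by
  have hpr := isProbabilityMeasure_law h.nonneg h.integrable h.integral_eq
  have hg := measurable_gE h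
  have hlaw : law f₀ = (volume : Measure Ph).withDensity (gE f₀) := rfl
  have hfin : ∫⁻ z, gE f₀ z ≠ ∞ := by
    have h1 : (law f₀) univ = ∫⁻ z, gE f₀ z := by
      rw [hlaw, withDensity_apply _ MeasurableSet.univ, setLIntegral_univ]
    rw [← h1]
    exact measure_ne_top _ _
  have e1 : (Measure.pi fun _ : Fin τ.card => inten f₀ ε) =
      ENNReal.ofReal (mu ε) ^ τ.card • (Measure.pi fun _ : Fin τ.card => (volume : Measure Ph)).withDensity
        (fun Z => ∏ i, gE f₀ (Z i)) := by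
    have h1 := pi_smul_const (ι := Fin τ.card) (ENNReal.ofReal (mu ε)) ENNReal.ofReal_ne_top
      (law f₀)
    rw [Fintype.card_fin] at h1
    rw [← pi_withDensity volume (gE f₀) hg hfin τ.card]
    exact h1
  have hok : MeasurableSet {z : Fin τ.card → Ph | ok Φ ε (τ.ord z)} :=
    (measurable_ord τ) (measurableSet_ok hΦ hε.ne')
  have hP : Measurable fun Z : Fin τ.card → Ph => ∏ i, gE f₀ (Z i) :=
    Finset.measurable_prod _ fun i _ => hg.comp (measurable_pi_apply i)
  rw [e1, lintegral_smul_measure, smul_eq_mul,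
    lintegral_withDensity_eq_lintegral_mul _ hP (hF.indicator hok)]
  have e2 : ∀ z : Fin τ.card → Ph, ((fun Z : Fin τ.card → Ph => ∏ i, gE f₀ (Z i)) *
      {z | ok Φ ε (τ.ord z)}.indicator F) z = {z | ok Φ ε (τ.ord z)}.indicator
        (fun z => (∏ i, gE f₀ (z i)) * (fun x : Ph × (Fin τ.card → Ph) => F x.2)
          (ln Φ ε (τ.ord z), z)) z := by
    intro z
    rw [Pi.mul_apply]
    by_cases hz : z ∈ {z | ok Φ ε (τ.ord z)}
    · rw [indicator_of_mem hz, indicator_of_mem hz]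
    · rw [indicator_of_notMem hz, indicator_of_notMem hz, mul_zero]
  simp_rw [e2]
  have e3 := lintegral_ok_ord hΦ hε τ hg (F := fun x : Ph × (Fin τ.card → Ph) => F x.2)
    (hF.comp measurable_snd)
  have e4 : (∫⁻ z : Fin τ.card → Ph, {z | ok Φ ε (τ.ord z)}.indicator
        (fun z => (∏ i, gE f₀ (z i)) * (fun x : Ph × (Fin τ.card → Ph) => F x.2)
          (ln Φ ε (τ.ord z), z)) z ∂(Measure.pi fun _ : Fin τ.card => (volume : Measure Ph))) =
      ENNReal.ofReal (ε ^ 2) ^ (τ.card - 1) *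
        ∫⁻ L : Ph, ∫⁻ p, KT.wt Φ τ L.2 p *
          {x : Ph × PD τ | tok Φ ε τ x.1.2 x.2}.indicator
            (fun x => lprod (gE f₀) τ (bk Φ ε τ x.1 x.2) *
              F (ldEquiv τ (bk Φ ε τ x.1 x.2))) (L, p) ∂pvol τ := e3
  rw [e4, ← mul_assoc, mu_pow_mul hε (card_pos τ)]
  congr 1
  have hm : Measurable fun x : Ph × PD τ => tw Φ ε (gE f₀) τ x *
      F (ldEquiv τ (bk Φ ε τ x.1 x.2)) :=
    (measurable_tw hΦ ε hg τ).mul (hF.comp ((ldEquiv τ).measurable.comp (measurable_bk hΦ ε τ)))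
  rw [lintegral_prod _ hm.aemeasurable]
  refine lintegral_congr fun L => lintegral_congr fun p => ?_
  unfold tw
  rw [mul_assoc]
  congr 1
  by_cases hx : (L, p) ∈ {x : Ph × PD τ | tok Φ ε τ x.1.2 x.2}
  · rw [indicator_of_mem hx, indicator_of_mem hx]
  · rw [indicator_of_notMem hx, indicator_of_notMem hx, zero_mul]

/-- The leaves of a tuple of trees in the backward parameters. -/
def bkt (Φ : E3 → ℝ) (ε : ℝ) (τ : Fin s → Shape) (x : ∀ k, Ph × PD (τ k)) (k : Fin s) :
    Fin (τ k).card → Ph := ldEquiv (τ k) (bk Φ ε (τ k) (x k).1 (x k).2)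

theorem measurable_bkt (hΦ : IsPotential Φ) (ε : ℝ) (τ : Fin s → Shape) :
    Measurable (bkt Φ ε τ) :=
  measurable_pi_iff.2 fun k => ((ldEquiv (τ k)).measurable.comp
    (measurable_bk hΦ ε (τ k))).comp (measurable_pi_apply k)

/-- The reference measure on the parameters of a tuple. -/
def mref (τ : Fin s → Shape) : Measure (∀ k, Ph × PD (τ k)) :=
  Measure.pi fun k => (volume : Measure Ph).prod (pvol (τ k))

instance (τ : Fin s → Shape) : SigmaFinite (mref τ) := by
  have h : ∀ k, SigmaFinite ((volume : Measure Ph).prod (pvol (τ k))) := fun k => inferInstance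
  unfold mref
  exact MeasureTheory.Measure.pi.sigmaFinite _

/-- **The law of the leaves of a tuple of trees.** -/
theorem lintegral_tuple (hΦ : IsPotential Φ) (h : GoodDatum f₀ κ) (hε : 0 < ε)
    (τ : Fin s → Shape) {F : (∀ k, Fin (τ k).card → Ph) → ℝ≥0∞} (hF : Measurable F) :
    ∫⁻ y, {y | ∀ k, ok Φ ε ((τ k).ord (y k))}.indicator F y
        ∂(Measure.pi fun k => Measure.pi fun _ : Fin (τ k).card => inten f₀ ε) =
      ENNReal.ofReal (mu ε) ^ s * ∫⁻ x, (∏ k, tw Φ ε (gE f₀) (τ k) (x k)) *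
        F (bkt Φ ε τ x) ∂(mref τ) := by
  have hfi := isFiniteMeasure_inten (ε := ε) h
  have hg := measurable_gE h
  set S : ∀ k, Set (Fin (τ k).card → Ph) := fun k => {z | ok Φ ε ((τ k).ord z)} with hS
  have hSm : ∀ k, MeasurableSet (S k) := fun k =>
    (measurable_ord (τ k)) (measurableSet_ok hΦ hε.ne')
  set w : ∀ k, Ph × PD (τ k) → ℝ≥0∞ := fun k x =>
    ENNReal.ofReal (mu ε) * tw Φ ε (gE f₀) (τ k) x with hw
  have hwm : ∀ k, Measurable (w k) := fun k => (measurable_tw hΦ ε hg (τ k)).const_mul _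
  have hwt : ∀ k x, w k x ≠ ∞ := fun k x =>
    ENNReal.mul_ne_top ENNReal.ofReal_ne_top (tw_ne_top gE_ne_top _ _)
  set b : ∀ k, Ph × PD (τ k) → (Fin (τ k).card → Ph) := fun k x =>
    ldEquiv (τ k) (bk Φ ε (τ k) x.1 x.2) with hb
  have hbm : ∀ k, Measurable (b k) := fun k =>
    (ldEquiv (τ k)).measurable.comp (measurable_bk hΦ ε (τ k))
  have key : ∀ k, (((volume : Measure Ph).prod (pvol (τ k))).withDensity (w k)).map (b k) =
      (Measure.pi fun _ : Fin (τ k).card => inten f₀ ε).restrict (S k) := by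
    intro k
    refine Measure.ext_of_lintegral _ fun G hG => ?_
    have hGb : Measurable fun x => G (b k x) := hG.comp (hbm k)
    rw [lintegral_map hG (hbm k), lintegral_withDensity_eq_lintegral_mul _ (hwm k) hGb, ← lintegral_indicator (hSm k), lintegral_inten_ok hΦ h hε (τ k) hG,
      ← lintegral_const_mul' _ _ ENNReal.ofReal_ne_top]
    refine lintegral_congr fun x => ?_
    rw [Pi.mul_apply, hw]
    simp only
    rw [mul_assoc]
  have hset : {y : ∀ k, Fin (τ k).card → Ph | ∀ k, ok Φ ε ((τ k).ord (y k))} =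
      Set.univ.pi S := by
    ext y; simp [hS]
  have hpm : MeasurableSet (Set.univ.pi S) := MeasurableSet.univ_pi hSm
  have hsf : ∀ k, SigmaFinite ((((volume : Measure Ph).prod (pvol (τ k))).withDensity
      (w k)).map (b k)) := fun k => by rw [key k]; infer_instance
  rw [hset, lintegral_indicator hpm, Measure.restrict_pi_pi]
  have key2 : (fun k => (Measure.pi fun _ : Fin (τ k).card => inten f₀ ε).restrict (S k)) =
      fun k => (((volume : Measure Ph).prod (pvol (τ k))).withDensity (w k)).map (b k) :=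
    funext fun k => (key k).symm
  rw [key2, ← Measure.pi_map_pi (fun k => (hbm k).aemeasurable)]
  have hbm' : Measurable fun (x : ∀ k, Ph × PD (τ k)) k => b k (x k) :=
    measurable_pi_iff.2 fun k => (hbm k).comp (measurable_pi_apply k)
  have hFb : Measurable fun x : ∀ k, Ph × PD (τ k) => F fun k => b k (x k) := hF.comp hbm'
  have hsv : ∀ k, SigmaFinite ((volume : Measure Ph).prod (pvol (τ k))) := fun k => inferInstance
  rw [lintegral_map hF hbm', pi_withDensity' hwm hwt]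
  have hPm : Measurable fun x : ∀ k, Ph × PD (τ k) => ∏ k, w k (x k) :=
    Finset.measurable_prod _ fun k _ => (hwm k).comp (measurable_pi_apply k)
  rw [lintegral_withDensity_eq_lintegral_mul _ hPm hFb,
    ← lintegral_const_mul' _ _ (ENNReal.pow_ne_top ENNReal.ofReal_ne_top)]
  refine lintegral_congr fun x => ?_
  rw [Pi.mul_apply]
  simp only [hw]
  rw [Finset.prod_mul_distrib, Finset.prod_const, Finset.card_univ, Fintype.card_fin, mul_assoc]
  rfl

end Vale.Agent.P119.END
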