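import Vale.Agent.P119.ML.FH7
import Vale.Agent.P119.ML.IrrGerm

/-!
# P119, `AliveENN`: ties (`helper576`)

A forest which is unhit before the time `t` lives at the time `t`, unless there is a related first
hitter or an ordinary tree whose first contact with the forest takes place exactly at the time `t`.

* `LvF`: all the trees of the forest live; `tieT`: the trees whose first contact is at time `t`;
* `surv_le_lv`, `tie_mass`.
-/

open MeasureTheory Set Filter Topology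
open scoped ENNReal

noncomputable section

namespace Vale.Agent.P119.END

open KU GC M CTree KT ML MM

variable {Φ : E3 → ℝ} {ε : ℝ} {L : ℕ} {t : ℝ} {f₀ : Ph → ℝ} {κ : ℝ} {W : Set Src} {F : List CTree}
  {T T' : CTree}

/-- All the trees of the forest live at time `t`. -/
def LvF (Φ : E3 → ℝ) (ε : ℝ) (L : ℕ) (W : Set Src) (F : List CTree) (t : ℝ) : Prop :=
  ∀ T ∈ F, lives Φ ε L W T t

theorem lives_or_firstHit (hΦ : IsPotential Φ) (hε : 0 < ε) (hF : OkF Φ ε L F)
    (hsub : lvs F ⊆ W) (hno : NoHit Φ ε L W F t) (hext : ∀ T ∈ F, ext Φ ε T ≤ t) :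
    LvF Φ ε L W F t ∨ ∃ T', FirstHit Φ ε L W F T' ∧ ff Φ ε F T' = t := by
  by_contra hcon
  push Not at hcon
  obtain ⟨h1, h2⟩ := hcon
  unfold LvF at h1
  push Not at h1
  obtain ⟨T, hT, hl⟩ := h1
  refine hl ⟨(leaves_subset_lvs hT).trans hsub, (hF T hT).1, (hF T hT).2,
    (sig_le_ext hΦ hε (hF T hT).1).trans (hext T hT), fun T' s hs hh ha => ?_⟩
  rcases hs.lt_or_eq with hs | hs
  · exact hno T hT T' s hs hh ha
  · subst hs
    have hmem : s ∈ conF Φ ε F T' := ⟨T, hT, hh⟩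
    have hfm := ff_mem hΦ hε hF ⟨s, hmem⟩
    have hle := ff_le hΦ hε hF hmem
    have hal : alive Φ ε L W T' (ff Φ ε F T') := alive_anti ha hle (ext_le_of_mem_conF hfm)
    rcases hle.lt_or_eq with hlt | heq
    · obtain ⟨S, hS, hs'⟩ := hfm
      exact hno S hS T' _ hlt hs' hal
    · exact h2 T' ⟨⟨s, hmem⟩, hal, hno.mono hle⟩ heq

theorem ok_of_sbt : ∀ {T T' : CTree}, T' ∈ sbt T → ok Φ ε T → ok Φ ε T'
  | .leaf σ, T', h, hT => by
    have : T' = .leaf σ := h
    rw [this]; exact hT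
  | .node a b, T', h, hT => by
    rcases h with h | h | h
    · have : T' = .node a b := h
      rw [this]; exact hT
    · exact ok_of_sbt h hT.1
    · exact ok_of_sbt h hT.2.1

theorem ext_sbt_le (hΦ : IsPotential Φ) (hε : 0 < ε) : ∀ {T T' : CTree}, T' ∈ sbt T →
    ok Φ ε T → ext Φ ε T' ≤ ext Φ ε T
  | .leaf σ, T', h, _ => by
    have : T' = .leaf σ := h
    rw [this]
  | .node a b, T', h, hT => by
    have h1 := sig_lt_ext hΦ hε hT
    rcases h with h | h | h
    · have : T' = .node a b := h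
      rw [this]
    · exact ((ext_sbt_le hΦ hε h hT.1).trans hT.2.2.2.2.2.1.le).trans h1.le
    · exact ((ext_sbt_le hΦ hε h hT.2.1).trans hT.2.2.2.2.2.2.le).trans h1.le

/-- The proper subtrees of a living tree are dead. -/
theorem dead_sbt (hΦ : IsPotential Φ) (hε : 0 < ε) (hW : W.Finite) : ∀ {T T' : CTree} {t s : ℝ},
    T' ∈ sbt T → T' ≠ T → alive Φ ε L W T t → t ≤ s → ¬alive Φ ε L W T' s
  | .leaf σ, T', t, s, h, hne, _, _ => fun _ => hne h
  | .node a b, T', t, s, h, hne, hT, hts => by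
    intro hT'
    have hsig := sig_le_of_pre hΦ hε (alive_pre hT)
    have hok := (alive_pre hT).ok
    have ha := alive_left hΦ hε hW hT
    have hb := alive_right hΦ hε hW hT
    rcases h with h | h | h
    · exact hne h
    · by_cases hTa : T' = a
      · subst hTa
        have h2 := (alive_iff hΦ hε hW).1 hT'
        exact h2.2 b _ (hsig.trans_le hts) (hit_sig hΦ hε hok) hb
      · exact dead_sbt hΦ hε hW h hTa ha (hsig.le.trans hts) hT'
    · by_cases hTb : T' = b
      · subst hTb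
        have h2 := (alive_iff hΦ hε hW).1 hT'
        exact h2.2 a _ (hsig.trans_le hts) (hit_sig' hΦ hε hok) ha
      · exact dead_sbt hΦ hε hW h hTb hb (hsig.le.trans hts) hT'

/-- The ordinary trees whose first contact with the forest is at the time `t`. -/
def tieT (Φ : E3 → ℝ) (ε : ℝ) (F : List CTree) (t : ℝ) : Set CTree :=
  {T' | ∃ T ∈ F, T' ∈ {T' | ∃ l ∈ legs Φ ε T t,
    T' ∈ {T' | (ok Φ ε T' ∧ ext Φ ε T' ≤ t) ∧ ln Φ ε T' ∈ sphereL ε t l.1}} ∪ irrT Φ ε T t}

theorem measurableSet_tieT (hΦ : IsPotential Φ) (hε : ε ≠ 0) (F : List CTree) (t : ℝ) :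
    MeasurableSet (tieT Φ ε F t) := by
  refine measurableSet_exists_mem _ fun T _ => MeasurableSet.union ?_ (measurableSet_irrT hΦ hε T t)
  refine measurableSet_exists_mem _ fun l _ => ?_
  exact ((measurableSet_ok hΦ hε).inter (measurableSet_le (measurable_ext hΦ hε)
    measurable_const)).inter (measurable_ln hΦ hε (measurableSet_sphereL ε t l.1))

/-- **Mass of the ties.** -/
theorem tie_mass (hΦ : IsPotential Φ) {f₀ : Ph → ℝ} {κ b T₀ M₀ : ℝ} (hg : GoodDatum f₀ κ)
    (hb : 0 < b) (hT : 0 ≤ T₀) (hM : 0 ≤ M₀) (hf : ∀ z, f₀ z ≤ M₀ * Real.exp (-b * ‖z.2‖ ^ 2))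
    (L : ℕ) : ∃ C : ℝ≥0∞, C ≠ ∞ ∧ ∀ ε : ℝ, 0 < ε → ∀ (F : List CTree) (t : ℝ), t ≤ T₀ →
      tree (GC.inten f₀ ε) L (tieT Φ ε F t) ≤
        (F.map fun T => C * ENNReal.ofReal (ε * irrC Φ ε T t)).sum := by
  obtain ⟨C, hC, h⟩ := irr_mass (T₀ := T₀) hΦ hg hb hT hM hf L
  refine ⟨C, hC, fun ε hε F t ht => ?_⟩
  refine (measure_exists_mem_le _ _ _).trans (List.sum_le_sum fun T _ => ?_)
  refine (measure_union_le _ _).trans ?_
  have h1 : tree (GC.inten f₀ ε) L {T' | ∃ l ∈ legs Φ ε T t,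
      T' ∈ {T' | (ok Φ ε T' ∧ ext Φ ε T' ≤ t) ∧ ln Φ ε T' ∈ sphereL ε t l.1}} = 0 := by
    refine le_antisymm ((measure_exists_mem_le _ _ _).trans ?_) zero_le
    have h2 : ∀ l ∈ legs Φ ε T t, tree (GC.inten f₀ ε) L
        {T' | (ok Φ ε T' ∧ ext Φ ε T' ≤ t) ∧ ln Φ ε T' ∈ sphereL ε t l.1} = 0 := by
      intro l _
      refine measure_mono_null ?_ (null_mass (T₀ := T₀) hΦ hε hg hb hT hM hf L
        (measurableSet_sphereL ε t l.1) (volume_sphereL hε.ne' t l.1))
      exact fun T' hT' => ⟨⟨hT'.1.1, hT'.1.2.trans ht⟩, hT'.2⟩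
    rw [List.map_congr_left h2]
    simp
  rw [h1, zero_add]
  exact h ε hε T t ht

/-- **The alternatives for a first hit at the time `t`.** -/
theorem firstHit_cases (hΦ : IsPotential Φ) (hε : 0 < ε) {w : Finset Ph} (hcmp : CmpF ε F w)
    (hF : OkF Φ ε L F) (hext : ∀ T ∈ F, ext Φ ε T ≤ t) (hsep : ∀ T ∈ F, ∀ T₀ ∈ F, ¬hit Φ ε T T₀ t)
    (h : FirstHit Φ ε L (Wc F w) F T') (ht : ff Φ ε F T' = t) :
    RelEv Φ ε L F t w T' ∨ (T'.leaves ⊆ world (w : Set Ph) ∧ (T'.depth ≤ L ∧ T' ∈ tieT Φ ε F t)) := by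
  have hW : (Wc F w).Finite := Wc_finite
  by_cases hd : Disjoint T'.leaves (lvs F)
  · right
    have hpre := alive_pre h.2.1
    refine ⟨subset_world_of_disjoint hpre.sub hd, hpre.depth, ?_⟩
    obtain ⟨T, hT, hh⟩ := ff_mem hΦ hε hF h.1
    rw [ht] at hh
    have hfirst : ∀ r < t, ¬hit Φ ε T T' r := fun r hr hh' =>
      absurd (ff_le hΦ hε hF (⟨T, hT, hh'⟩ : r ∈ conF Φ ε F T')) (not_le.2 (by rw [ht]; exact hr))
    have hdT : Disjoint T.leaves T'.leaves := (hd.mono_right (leaves_subset_lvs hT)).symm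
    refine ⟨T, hT, ?_⟩
    rcases first_hit_irr hΦ hε (hF T hT).1 hpre.ok hdT hh hfirst le_rfl with h1 | h1
    · left
      obtain ⟨l, hl, -, -, h3, h4, h5⟩ := h1
      refine ⟨l, hl, ⟨hpre.ok, h3.le⟩, ?_⟩
      have h6 := dist_hitT hε h4
      rw [h5] at h6
      exact h6
    · exact Or.inr h1
  · left
    refine ⟨⟨hcmp, hF, hd, h⟩, Or.inr ⟨ht, fun T₀ hT₀ hs => ?_⟩⟩
    have hal₀ : alive Φ ε L (Wc F w) T₀ t := by
      refine alive_of_noHit hΦ hε hW hF lvs_subset_Wc ?_ hT₀ (hext T₀ hT₀)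
      rw [← ht]
      exact h.2.2
    have hal' : alive Φ ε L (Wc F w) T' t := by
      have := h.2.1
      rwa [ht] at this
    by_cases hTT : T' = T₀
    · subst hTT
      obtain ⟨T, hT, hh⟩ := ff_mem hΦ hε hF h.1
      rw [ht] at hh
      exact hsep T hT T' hT₀ hh
    · exact dead_sbt hΦ hε hW hs hTT hal₀ le_rfl hal'

/-- The expected number of the ordinary trees in a set. -/
theorem lintegral_count_le (h : GoodDatum f₀ κ) (hε : 0 < ε) {S : Set CTree}
    (hS : MeasurableSet S) (hok : ∀ T ∈ S, ok Φ ε T) :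
    ∫⁻ c, ∑' T : CTree, ind (T.leaves ⊆ world (pts c : Set Ph) ∧ (T.depth ≤ L ∧ T ∈ S))
      ∂(PP f₀ ε) ≤ tree (inten f₀ ε) L S := by
  classical
  have hfi := isFiniteMeasure_inten (ε := ε) h
  have hpr := isProbability_PP (ε := ε) h
  have hm : MeasurableSet {T : CTree | T.depth ≤ L ∧ T ∈ S} :=
    (meas_depth measurable_id (measurableSet_Iic (a := L))).inter hS
  have h1 := extract_le (Φ := Φ) (ε := ε) (L := L) (ν := inten f₀ ε) (C := Cx ε)
    (measurableSet_Cx ε) (Cx_symm ε) (Cx_irrefl hε.le)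
    (F := fun T _ => ind (T.depth ≤ L ∧ T ∈ S))
    (fun T w hT => ⟨hok T (ind_ne_zero.1 hT).2, (ind_ne_zero.1 hT).1⟩)
    ((measurable_ind hm).comp measurable_fst)
  have h2 : ∀ c : Conf Ph, ∑' T : CTree,
      ind (T.leaves ⊆ world (pts c : Set Ph) ∧ (T.depth ≤ L ∧ T ∈ S)) =
      ∑' T : CTree, (if T.leaves ⊆ world (pts c : Set Ph) then ind (T.depth ≤ L ∧ T ∈ S) else 0) := by
    intro c
    refine tsum_congr fun T => ?_
    rw [ind_and]
    by_cases hT : T.leaves ⊆ world (pts c : Set Ph)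
    · rw [ind_of_true hT, if_pos hT, one_mul]
    · rw [ind_of_false hT, if_neg hT, zero_mul]
  simp only [h2]
  refine h1.trans ?_
  rw [← lintegral_indicator_one hS]
  refine lintegral_mono fun T => ?_
  simp only
  rw [lintegral_const]
  have h3 : (gc (inten f₀ ε) (Cx ε)) univ = 1 := hpr.measure_univ
  rw [h3, mul_one]
  by_cases hT : T ∈ S
  · rw [indicator_of_mem hT]
    exact ind_le_one _
  · rw [ind_of_false fun h => hT h.2]
    exact zero_le

theorem measurable_indLv (hΦ : IsPotential Φ) (hε : 0 < ε) (F : List CTree) (t : ℝ) :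
    Measurable fun c : Conf Ph => ind (CmpF ε F (pts c) ∧ LvF Φ ε L (Wc F (pts c)) F t) := by
  have hFs := MF.cst (X := Conf Ph) F
  have h2 := measurableSet_cmpF (ε := ε) hFs measurable_id
  have hW := RS.Wc hFs (measurable_id (α := Conf Ph))
  simp only [ev_cst] at h2 hW
  have h3 : ∀ G : List CTree, MeasurableSet {c : Conf Ph | LvF Φ ε L (Wc F (pts c)) G t} := by
    intro G
    induction G with
    | nil =>
      have : {c : Conf Ph | LvF Φ ε L (Wc F (pts c)) [] t} = univ := by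
        ext c
        simp [LvF]
      rw [this]
      exact MeasurableSet.univ
    | cons T G ih =>
      have h4 := measurableSet_tree_lives (L := L) (T := fun _ : Conf Ph => T) (t := fun _ => t)
        hΦ hε hW (fun c => Wc_finite) measurable_const measurable_const
      refine (h4.inter ih).congr ?_
      ext c
      simp only [LvF, mem_inter_iff, mem_ofPred_eq, List.mem_cons, forall_eq_or_imp]
      exact Iff.rfl
  exact measurable_ind (h2.inter (h3 F))

/-- **Unhit before `t` and living at `t`.** -/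
theorem surv_le_lv (hΦ : IsPotential Φ) (h : GoodDatum f₀ κ) (hε : 0 < ε) {F : List CTree}
    (hext : ∀ T ∈ F, ext Φ ε T ≤ t)
    (hsep : OkF Φ ε L F → ∀ T ∈ F, ∀ T₀ ∈ F, ¬hit Φ ε T T₀ t) :
    surv Φ ε L f₀ F t ≤
      ∫⁻ c, ind (CmpF ε F (pts c) ∧ LvF Φ ε L (Wc F (pts c)) F t) ∂(PP f₀ ε) +
        (RelP Φ ε L f₀ F t + tree (inten f₀ ε) L (tieT Φ ε F t)) := by
  have h1 : tree (inten f₀ ε) L (tieT Φ ε F t) ≥ ∫⁻ c, ∑' T : CTree,
      ind (T.leaves ⊆ world (pts c : Set Ph) ∧ (T.depth ≤ L ∧ T ∈ tieT Φ ε F t)) ∂(PP f₀ ε) := by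
    refine lintegral_count_le (Φ := Φ) h hε (measurableSet_tieT hΦ hε.ne' F t) ?_
    rintro T' ⟨T, -, ⟨l, -, h2⟩ | h2⟩
    · exact h2.1.1
    · rcases h2 with ⟨l, -, h2 | h2 | h2⟩ | ⟨w, -, h2⟩
      · exact h2.1.1
      · exact h2.1.1
      · exact h2.1.1
      · exact h2.1.1
  refine le_trans ?_ (add_le_add le_rfl (add_le_add le_rfl h1))
  unfold surv RelP
  rw [← lintegral_add_left (measurable_relEx_pts hΦ hε F t),
    ← lintegral_add_left (measurable_indLv hΦ hε F t)]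
  refine lintegral_mono fun c => ?_
  by_cases hc : CmpF ε F (pts c) ∧ Unhit Φ ε L (Wc F (pts c)) F t
  · obtain ⟨hcmp, hF, hno⟩ := hc
    rcases lives_or_firstHit hΦ hε hF lvs_subset_Wc hno hext with h2 | ⟨T', h2, h3⟩
    · simp only
      rw [ind_of_true (P := CmpF ε F (pts c) ∧ LvF Φ ε L (Wc F (pts c)) F t) ⟨hcmp, h2⟩]
      exact (ind_le_one _).trans le_self_add
    · rcases firstHit_cases hΦ hε hcmp hF hext (hsep hF) h2 h3 with h4 | h4
      · simp only
        rw [ind_of_true (P := ∃ T', RelEv Φ ε L F t (pts c) T') ⟨T', h4⟩]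
        exact (ind_le_one _).trans (le_add_left le_self_add)
      · simp only
        refine (ind_le_one _).trans (le_add_left (le_add_left ?_))
        refine le_trans ?_ (ENNReal.le_tsum T')
        rw [ind_of_true h4]
  · simp only
    rw [ind_of_false hc]
    exact zero_le

end Vale.Agent.P119.END
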