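import Vale.Agent.P119.END.AliveCont
import Vale.Agent.P119.END.AliveTie
import Vale.Agent.P119.END.AliveGen

/-!
# P119, `AliveENN`: the limit (`helper576`)

* `Bx_ge`: the probability that the tuple lives is at least the survival probability of the forest, up to
  ties;
* `defect_tendsto`: convergence of the defect for generic parameters;
* `aliveENN_of_lim`: **`AliveENN` from the limit of the survival probabilities of forests**.
-/

open MeasureTheory Set Filter Topology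
open scoped ENNReal

noncomputable section

namespace Vale.Agent.P119.END

open GC M CTree KT ML KE

variable {Φ : E3 → ℝ} {ε : ℝ} {L s : ℕ} {t : ℝ} {f₀ : Ph → ℝ} {κ : ℝ}

/-! ### The forest of a tuple -/

theorem mem_trees_germs {τ : Fin s → Shape} {x : ∀ k, Ph × PD (τ k)} {T : CTree} :
    T ∈ trees Φ ε (germs τ x) ↔ ∃ k, T = ftree τ (zx Φ ε τ x) k := by
  rw [trees_germs, List.mem_ofFn]
  constructor
  · rintro ⟨k, hk⟩
    exact ⟨k, by rw [ftree_zx, hk]⟩
  · rintro ⟨k, hk⟩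
    exact ⟨k, by rw [hk, ftree_zx]⟩

theorem lvs_trees_germs (τ : Fin s → Shape) (x : ∀ k, Ph × PD (τ k)) :
    lvs (trees Φ ε (germs τ x)) = src '' range (zx Φ ε τ x) := by
  ext σ
  rw [mem_lvs]
  constructor
  · rintro ⟨T, hT, hσ⟩
    obtain ⟨k, rfl⟩ := mem_trees_germs.1 hT
    rw [leaves_ftree] at hσ
    obtain ⟨y, ⟨i, rfl⟩, rfl⟩ := hσ
    exact ⟨_, ⟨finSigmaFinEquiv ⟨k, i⟩, rfl⟩, rfl⟩
  · rintro ⟨y, ⟨j, rfl⟩, rfl⟩
    obtain ⟨⟨k, i⟩, rfl⟩ := finSigmaFinEquiv.surjective j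
    refine ⟨ftree τ (zx Φ ε τ x) k, mem_trees_germs.2 ⟨k, rfl⟩, ?_⟩
    rw [leaves_ftree]
    exact ⟨_, ⟨i, rfl⟩, rfl⟩

theorem Wc_trees_germs (τ : Fin s → Shape) (x : ∀ k, Ph × PD (τ k)) (w : Finset Ph) :
    Wc (trees Φ ε (germs τ x)) w = world (wz (zx Φ ε τ x) w) := by
  unfold Wc
  rw [lvs_trees_germs]
  unfold world wz
  rw [image_union]

theorem cmpF_trees_germs (τ : Fin s → Shape) (x : ∀ k, Ph × PD (τ k)) (w : Finset Ph) :
    CmpF ε (trees Φ ε (germs τ x)) w ↔ Cmp (Cx ε) (zx Φ ε τ x) w := by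
  unfold CmpF Cmp Cx
  rw [lvs_trees_germs]
  constructor
  · intro h i y hy
    have h1 := h y hy (src (zx Φ ε τ x i)) ⟨_, ⟨i, rfl⟩, rfl⟩
    rw [norm_sub_rev]
    exact h1
  · rintro h y hy σ ⟨_, ⟨i, rfl⟩, rfl⟩
    have h1 := h i y hy
    rw [norm_sub_rev] at h1
    exact h1

/-- The tuple lives if the forest lives. -/
theorem Bx_ge {τ : Fin s → Shape} {x : ∀ k, Ph × PD (τ k)}
    (hPW : PW (Cx ε) (zx Φ ε τ x)) (hext : ∀ k, ext Φ ε (ftree τ (zx Φ ε τ x) k) ≤ t) :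
    ∫⁻ c, ind (CmpF ε (trees Φ ε (germs τ x)) (pts c) ∧
      LvF Φ ε L (Wc (trees Φ ε (germs τ x)) (pts c)) (trees Φ ε (germs τ x)) t) ∂(PP f₀ ε) ≤
    Bx Φ ε L f₀ t τ x := by
  unfold Bx Cz
  rw [indicator_of_mem (show zx Φ ε τ x ∈ {z : Fin (nlv τ) → Ph | PW (Cx ε) z} from hPW),
    ← lintegral_indicator (measurableSet_cmp_slice ε (zx Φ ε τ x))]
  refine lintegral_mono fun c => ?_
  by_cases h : CmpF ε (trees Φ ε (germs τ x)) (pts c) ∧
      LvF Φ ε L (Wc (trees Φ ε (germs τ x)) (pts c)) (trees Φ ε (germs τ x)) t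
  · simp only
    rw [ind_of_true h, indicator_of_mem (show c ∈ {c : Conf Ph | Cmp (Cx ε) (zx Φ ε τ x) (pts c)}
      from (cmpF_trees_germs τ x (pts c)).1 h.1)]
    unfold fun_
    have h1 : allive Φ ε L t τ (zx Φ ε τ x) (wz (zx Φ ε τ x) (pts c)) := by
      intro k
      have h2 := h.2 _ (mem_trees_germs.2 ⟨k, rfl⟩)
      rw [Wc_trees_germs] at h2
      exact ⟨h2, hext k⟩
    rw [if_pos h1]
  · simp only
    rw [ind_of_false h]
    exact zero_le

/-- Two trees in flight which are far apart do not hit each other. -/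
theorem not_hit_of_far (hΦ : IsPotential Φ) (hε : 0 < ε) {T T' : CTree} (hT : ok Φ ε T)
    (hext : ext Φ ε T ≤ t) (h : ε < ‖(KU.free t (ln Φ ε T)).1 - (KU.free t (ln Φ ε T')).1‖) :
    ¬hit Φ ε T T' t := fun hh =>
  absurd ((hit_after hΦ hε hT hext).1 hh).2.2.le (not_le.2 h)

theorem relP_mono {F : List CTree} {t t' : ℝ} (htt : t ≤ t') :
    RelP Φ ε L f₀ F t ≤ RelP Φ ε L f₀ F t' := by
  rcases htt.eq_or_lt with h | h
  · rw [h]
  · refine lintegral_mono fun c => ind_mono ?_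
    rintro ⟨T', h1, h2⟩
    refine ⟨T', h1, Or.inl ?_⟩
    rcases h2 with h2 | h2
    · exact h2.trans h
    · rw [h2.1]; exact h

theorem surv_anti {F : List CTree} {t t' : ℝ} (htt : t ≤ t') :
    surv Φ ε L f₀ F t' ≤ surv Φ ε L f₀ F t :=
  lintegral_mono fun _ => ind_mono fun h => ⟨h.1, h.2.mono htt⟩

/-! ### The limit of the defect -/

section Lim

variable {hΦ : IsPotential Φ} {m₀ : Measurable fun p : E3 × E3 => K1.f0hat f₀ p.1 p.2} {T : ℝ}
  {f : ℝ → Ph → ℝ} (K : KinFamily hΦ f₀ m₀ T f)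

/-- Lower bound for the probability that the tuple lives. -/
theorem surv_le_Bx (hΦ : IsPotential Φ) (h : GoodDatum f₀ κ) (hε : 0 < ε) {τ : Fin s → Shape}
    {x : ∀ k, Ph × PD (τ k)} (hg : ∀ k, good Φ (τ k) (x k).1.2 (x k).2)
    (hPW : PW (Cx ε) (zx Φ ε τ x)) (hext : ∀ k, ex ε (τ k) (x k).1.2 (x k).2 ≤ t)
    (hfar : ∀ k l, k ≠ l → ε < ‖(KU.free t (x k).1).1 - (KU.free t (x l).1).1‖) :
    surv Φ ε L f₀ (trees Φ ε (germs τ x)) t ≤ Bx Φ ε L f₀ t τ x +
      (RelP Φ ε L f₀ (trees Φ ε (germs τ x)) t +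
        tree (inten f₀ ε) L (tieT Φ ε (trees Φ ε (germs τ x)) t)) := by
  have hext' : ∀ k, ext Φ ε (ftree τ (zx Φ ε τ x) k) ≤ t := fun k => by
    rw [ftree_zx, ext_mkL_bk hΦ hε.ne' (τ k) (x k).1 (x k).2 (hg k)]
    exact hext k
  refine (surv_le_lv hΦ h hε ?_ ?_).trans (add_le_add (Bx_ge hPW hext') le_rfl)
  · intro T hT
    obtain ⟨k, rfl⟩ := mem_trees_germs.1 hT
    exact hext' k
  · intro hok T hT T₀ hT₀
    obtain ⟨k, hk⟩ := mem_trees_germs.1 hT
    obtain ⟨l, hl⟩ := mem_trees_germs.1 hT₀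
    by_cases hkl : k = l
    · subst hkl
      rw [hl, ← hk]
      exact not_hit_of_subset subset_rfl
    · refine not_hit_of_far hΦ hε (hok T hT).1 (by rw [hk]; exact hext' k) ?_
      rw [hk, hl, ftree_zx, ftree_zx, ln_mkL_bk hΦ hε.ne' (τ k) (x k).1 (x k).2 (hg k),
        ln_mkL_bk hΦ hε.ne' (τ l) (x l).1 (x l).2 (hg l)]
      exact hfar k l hkl

theorem tendsto_prod_ne_top {ι : Type*} [Fintype ι] {g : ι → ℕ → ℝ≥0∞} {a : ι → ℝ≥0∞}
    (h : ∀ i, Tendsto (g i) atTop (𝓝 (a i))) (ha : ∀ i, a i ≠ ∞) :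
    Tendsto (fun n => ∏ i, g i n) atTop (𝓝 (∏ i, a i)) :=
  ENNReal.tendsto_finsetProd_of_ne_top _ (fun i _ => h i) fun i _ => ha i

/-- **Convergence of the defect.** -/
theorem defect_tendsto {L : ℕ} (hL : K.L₀ ≤ L + 1) (h : GoodDatum f₀ κ)
    (hc : ∀ v : E3, Continuous fun x : E3 => gE f₀ (x, v))
    {C : ℝ≥0∞} (hC : C ≠ ∞) (htie : ∀ ε : ℝ, 0 < ε → ∀ (F : List CTree) (t : ℝ), t ≤ T →
      tree (GC.inten f₀ ε) L (tieT Φ ε F t) ≤
        (F.map fun T => C * ENNReal.ofReal (ε * irrC Φ ε T t)).sum)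
    {εs ts : ℕ → ℝ} {t₀ : ℝ} (hε : ∀ n, 0 < εs n) (hε0 : Tendsto εs atTop (𝓝 0))
    (hts : ∀ n, ts n ∈ Icc 0 T) (ht : Tendsto ts atTop (𝓝 t₀))
    (τ : Fin s → Shape) (x : ∀ k, Ph × PD (τ k))
    (hst : ∀ k, gent (τ k) (x k).2 ∧ (stm (τ k) (x k).2 = t₀ → τ k = .leaf))
    (hPW : ∀ᶠ n in atTop, PW (Cx (εs n)) (zx Φ (εs n) τ x))
    (hne : ∀ k l, k ≠ l → (KU.free t₀ (x k).1).1 ≠ (KU.free t₀ (x l).1).1)
    (hsurv : (∀ k, good Φ (τ k) (x k).1.2 (x k).2) → (∀ k, ordd (τ k) t₀ (x k).2) →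
      ∀ b < ∏ k, legW Φ (K.leg L) (τ k) t₀ (x k).1 (x k).2,
        ∀ᶠ n in atTop, b ≤ surv Φ (εs n) L f₀ (trees Φ (εs n) (germs τ x)) (ts n))
    (hrel : (∀ k, good Φ (τ k) (x k).1.2 (x k).2) → (∀ k, ordd (τ k) t₀ (x k).2) →
      Tendsto (fun n => RelP Φ (εs n) L f₀ (trees Φ (εs n) (germs τ x)) (ts n)) atTop (𝓝 0)) :
    Tendsto (fun n => defect K L τ (εs n) (ts n) x) atTop (𝓝 0) := by
  have hzero : ∀ {n : ℕ} {k : Fin s}, kk K L (τ k) (ts n) (x k) = 0 →
      defect K L τ (εs n) (ts n) x = 0 := by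
    intro n k hk
    unfold defect
    rw [Finset.prod_eq_zero (Finset.mem_univ k) hk, zero_tsub]
  by_cases hg : ∀ k, good Φ (τ k) (x k).1.2 (x k).2
  swap
  · push Not at hg
    obtain ⟨k, hk⟩ := hg
    refine tendsto_const_nhds.congr fun n => (hzero (k := k) ?_).symm
    have h1 : kw0 Φ f₀ (τ k) (x k) = 0 := by
      unfold kw0
      by_contra hcon
      exact hk ((wt_ne_zero_iff (τ k) _ _).1 (left_ne_zero_of_mul hcon))
    rw [kk_eq, h1, zero_mul, mul_zero]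
  by_cases ho : ∀ k, ordd (τ k) t₀ (x k).2
  swap
  · push Not at ho
    obtain ⟨k, hk⟩ := ho
    by_cases hex : ∃ n₀, ordd (τ k) (ts n₀) (x k).2
    · obtain ⟨n₀, hn₀⟩ := hex
      have h1 := (not_congr (ordd_iff (τ k) (t := t₀) hn₀)).1 hk
      push Not at h1
      refine tendsto_const_nhds.congr' ?_
      filter_upwards [ht.eventually_lt_const h1.2] with n hn
      refine (hzero (k := k) ?_).symm
      have h2 : ¬ordd (τ k) (ts n) (x k).2 := by
        rw [ordd_iff (τ k) (t := ts n) hn₀]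
        push Not
        exact ⟨h1.1, hn⟩
      rw [kk_eq, ind_of_false h2, zero_mul]
    · push Not at hex
      refine tendsto_const_nhds.congr fun n => (hzero (k := k) ?_).symm
      rw [kk_eq, ind_of_false (hex n), zero_mul]
  -- the main case
  have hlt : ∀ k, τ k = .leaf ∨ stm (τ k) (x k).2 < t₀ := by
    intro k
    rcases (ordd_iff (τ k) (ho k)).1 (ho k) with h1 | h1
    · exact Or.inl h1
    · rcases h1.lt_or_eq with h2 | h2
      · exact Or.inr h2
      · exact Or.inl ((hst k).2 h2)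
  have hT0 : t₀ ≤ T := le_of_tendsto' ht fun n => (hts n).2
  have hA : Tendsto (fun n => ∏ k, kk K L (τ k) (ts n) (x k)) atTop
      (𝓝 (∏ k, (kw0 Φ f₀ (τ k) (x k) * legW Φ (K.leg L) (τ k) t₀ (x k).1 (x k).2))) :=
    tendsto_prod_ne_top (fun k => tendsto_kk K hL (fun n => (hts n).2) ht (τ k) (ho k) (hlt k))
      fun k => ENNReal.mul_ne_top (kw0_ne_top _ _) (ne_top_of_le_ne_top ENNReal.one_ne_top
        (legW_le_one (fun s t l => leg_le_one K L s t l) _ _ _ _))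
  have hB : Tendsto (fun n => ∏ k, tw Φ (εs n) (gE f₀) (τ k) (x k)) atTop
      (𝓝 (∏ k, kw0 Φ f₀ (τ k) (x k))) :=
    tendsto_prod_ne_top (fun k => tendsto_tw hc hε0 (τ k) (ho k) (hst k).1)
      fun k => kw0_ne_top _ _
  set β : ℝ≥0∞ := ∏ k, legW Φ (K.leg L) (τ k) t₀ (x k).1 (x k).2 with hβ
  have hβ1 : β ≤ 1 := Finset.prod_le_one' fun k _ =>
    legW_le_one (fun s t l => leg_le_one K L s t l) _ _ _ _
  have hβt : β ≠ ∞ := ne_top_of_le_ne_top ENNReal.one_ne_top hβ1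
  -- the error terms
  have htieT : Tendsto (fun n => tree (inten f₀ (εs n)) L
      (tieT Φ (εs n) (trees Φ (εs n) (germs τ x)) (ts n))) atTop (𝓝 0) := by
    have h1 : ∀ n, tree (inten f₀ (εs n)) L (tieT Φ (εs n) (trees Φ (εs n) (germs τ x)) (ts n)) ≤
        ∑ k, C * ENNReal.ofReal (εs n * irrP Φ (τ k) (x k).1.2 (x k).2) := by
      intro n
      refine (htie (εs n) (hε n) _ (ts n) (hts n).2).trans (le_of_eq ?_)
      rw [trees_germs, List.map_ofFn, List.sum_ofFn]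
      refine Finset.sum_congr rfl fun k _ => ?_
      simp only [Function.comp_apply]
      rw [irrC_bk hΦ (hε n).ne' (τ k) (x k).1 (x k).2 (ts n) (hg k)]
    have h2 : Tendsto (fun n => ∑ k, C * ENNReal.ofReal (εs n * irrP Φ (τ k) (x k).1.2 (x k).2))
        atTop (𝓝 (∑ _k : Fin s, (0 : ℝ≥0∞))) := by
      refine tendsto_finsetSum _ fun k _ => ?_
      have h3 : Tendsto (fun n => εs n * irrP Φ (τ k) (x k).1.2 (x k).2) atTop (𝓝 0) := by
        have := hε0.mul_const (irrP Φ (τ k) (x k).1.2 (x k).2)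
        rwa [zero_mul] at this
      have h4 := ENNReal.Tendsto.const_mul (ENNReal.tendsto_ofReal h3) (Or.inr hC)
      rwa [ENNReal.ofReal_zero, mul_zero] at h4
    rw [Finset.sum_const_zero] at h2
    exact tendsto_of_tendsto_of_tendsto_of_le_of_le tendsto_const_nhds h2 (fun _ => zero_le) h1
  have hr : Tendsto (fun n => RelP Φ (εs n) L f₀ (trees Φ (εs n) (germs τ x)) (ts n) +
      tree (inten f₀ (εs n)) L (tieT Φ (εs n) (trees Φ (εs n) (germs τ x)) (ts n))) atTop (𝓝 0) := by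
    have := (hrel hg ho).add htieT
    rwa [add_zero] at this
  -- geometry
  have hext : ∀ᶠ n in atTop, ∀ k, ex (εs n) (τ k) (x k).1.2 (x k).2 ≤ ts n := by
    rw [eventually_all]
    intro k
    rcases hlt k with h1 | h1
    · refine Eventually.of_forall fun n => ?_
      have h2 : ∀ (σ : Shape) (v : E3) (p : PD σ), σ = .leaf → ex (εs n) σ v p = 0 := by
        rintro σ v p rfl
        rfl
      rw [h2 _ _ _ h1]
      exact (hts n).1
    · filter_upwards [(tendsto_ex hε0 (τ k) (x k).1.2 (x k).2).eventually_lt ht h1] with n hn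
      exact hn.le
  have hfar : ∀ᶠ n in atTop, ∀ k l, k ≠ l →
      εs n < ‖(KU.free (ts n) (x k).1).1 - (KU.free (ts n) (x l).1).1‖ := by
    rw [eventually_all]
    intro k
    rw [eventually_all]
    intro l
    by_cases hkl : k = l
    · exact Eventually.of_forall fun n h' => absurd hkl h'
    · have h1 : ∀ j, Tendsto (fun n => (KU.free (ts n) (x j).1).1) atTop
          (𝓝 (KU.free t₀ (x j).1).1) := by
        intro j
        unfold KU.free
        exact (ht.smul_const _).const_add _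
      have h2 := ((h1 k).sub (h1 l)).norm
      have h3 : 0 < ‖(KU.free t₀ (x k).1).1 - (KU.free t₀ (x l).1).1‖ :=
        norm_pos_iff.2 (sub_ne_zero.2 (hne k l hkl))
      filter_upwards [hε0.eventually_lt h2 h3] with n hn _
      exact hn
  have hBx : ∀ b < β, ∀ᶠ n in atTop, b ≤ Bx Φ (εs n) L f₀ (ts n) τ x := by
    intro b hb
    obtain ⟨b', hb1, hb2⟩ := exists_between hb
    have h1 : 0 < b' - b := tsub_pos_of_lt hb1
    filter_upwards [hsurv hg ho b' hb2, hr.eventually_lt_const h1, hPW, hext, hfar] with n h2 h3 h4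
      h5 h6
    have h7 := surv_le_Bx (L := L) hΦ h (hε n) hg h4 h5 h6
    have h8 : b' ≤ Bx Φ (εs n) L f₀ (ts n) τ x + (b' - b) :=
      (h2.trans h7).trans (add_le_add le_rfl h3.le)
    have h9 : b + (b' - b) ≤ Bx Φ (εs n) L f₀ (ts n) τ x + (b' - b) := by
      rw [add_tsub_cancel_of_le hb1.le]
      exact h8
    have h10 : b' - b ≠ ∞ := ne_top_of_le_ne_top (ne_top_of_lt hb2) tsub_le_self
    exact (ENNReal.add_le_add_iff_right h10).1 h9
  have hmin : Tendsto (fun n => min (Bx Φ (εs n) L f₀ (ts n) τ x) β) atTop (𝓝 β) := by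
    rw [tendsto_order]
    refine ⟨fun b hb => ?_, fun b hb => Eventually.of_forall fun n => (min_le_right _ _).trans_lt hb⟩
    obtain ⟨b', hb1, hb2⟩ := exists_between hb
    filter_upwards [hBx b' hb2] with n hn
    exact lt_min (hb1.trans_le hn) hb
  have hfin : (∏ k, kw0 Φ f₀ (τ k) (x k)) ≠ ∞ := ENNReal.prod_ne_top fun k _ => kw0_ne_top _ _
  have h1 := ENNReal.Tendsto.mul hB (Or.inr hβt) hmin (Or.inr hfin)
  have h2 : Tendsto (fun n => (∏ k, kk K L (τ k) (ts n) (x k)) -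
      (∏ k, tw Φ (εs n) (gE f₀) (τ k) (x k)) * min (Bx Φ (εs n) L f₀ (ts n) τ x) β) atTop
      (𝓝 ((∏ k, (kw0 Φ f₀ (τ k) (x k) * legW Φ (K.leg L) (τ k) t₀ (x k).1 (x k).2)) -
        (∏ k, kw0 Φ f₀ (τ k) (x k)) * β)) :=
    ENNReal.Tendsto.sub hA h1 (Or.inr (ENNReal.mul_ne_top hfin hβt))
  rw [Finset.prod_mul_distrib, tsub_self] at h2
  refine tendsto_of_tendsto_of_tendsto_of_le_of_le tendsto_const_nhds h2 (fun _ => zero_le)
    fun n => ?_
  unfold defect
  exact tsub_le_tsub_left (by gcongr; exact min_le_left _ _) _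

/-! ### Assembly -/

/-- The limit of the survival probabilities of the forests of a tuple of shapes. -/
def SurvLim (L : ℕ) (τ : Fin s → Shape) : Prop :=
  ∀ εs : ℕ → ℝ, (∀ n, 0 < εs n) → Tendsto εs atTop (𝓝 0) → ∀ t ∈ Ioc 0 T,
    ∀ᵐ x ∂(mref τ), (∀ k, good Φ (τ k) (x k).1.2 (x k).2) → (∀ k, ordd (τ k) t (x k).2) →
      Tendsto (fun n => surv Φ (εs n) L f₀ (trees Φ (εs n) (germs τ x)) t) atTop
        (𝓝 (∏ k, legW Φ (K.leg L) (τ k) t (x k).1 (x k).2))

/-- The related first hitters disappear. -/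
def RelLim (Φ : E3 → ℝ) (f₀ : Ph → ℝ) (T : ℝ) (L : ℕ) (τ : Fin s → Shape) : Prop :=
  ∀ εs : ℕ → ℝ, (∀ n, 0 < εs n) → Tendsto εs atTop (𝓝 0) →
    ∀ᵐ x ∂(mref τ), (∀ k, good Φ (τ k) (x k).1.2 (x k).2) → (∀ k, ordd (τ k) T (x k).2) →
      Tendsto (fun n => RelP Φ (εs n) L f₀ (trees Φ (εs n) (germs τ x)) T) atTop (𝓝 0)

theorem core_of_lim {L : ℕ} (hL : K.L₀ ≤ L + 1) (h : GoodDatum f₀ κ) (hc : Continuous f₀)
    (hT : 0 < T) (τ : Fin s → Shape) (hS : SurvLim K L τ) (hR : RelLim Φ f₀ T L τ) :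
    Core K L τ := by
  have hf : ∀ z, f₀ z ≤ K.M * Real.exp (-K.b * ‖z.2‖ ^ 2) := fun z =>
    (ENNReal.ofReal_le_ofReal_iff (mul_nonneg K.M0 (Real.exp_pos _).le)).1 (K.f0_le z.1 z.2)
  obtain ⟨C, hC, htie⟩ := tie_mass (T₀ := T) hΦ h K.b0 hT.le K.M0 hf L
  have hc' : ∀ v : E3, Continuous fun x : E3 => gE f₀ (x, v) := fun v =>
    ENNReal.continuous_ofReal.comp (hc.comp (by fun_prop))
  refine core_of_pointwise K h hT.le τ fun εs ts t₀ hε hε0 hts ht ht₀ => ?_
  -- times after `t₀`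
  set um : ℕ → ℝ := fun m => t₀ + (T - t₀) / (m + 1) with hum
  have hum1 : ∀ m, um m ≤ T := fun m => by
    have h1 : (T - t₀) / ((m : ℝ) + 1) ≤ T - t₀ :=
      div_le_self (sub_nonneg.2 ht₀.2) (by have : (0 : ℝ) ≤ m := Nat.cast_nonneg m; linarith)
    rw [hum]
    simp only
    linarith
  have hum0 : ∀ m, t₀ ≤ um m := fun m => by
    have h1 : 0 ≤ (T - t₀) / ((m : ℝ) + 1) := div_nonneg (sub_nonneg.2 ht₀.2) (by positivity)
    rw [hum]
    simp only
    linarith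
  have humt : Tendsto um atTop (𝓝 t₀) := by
    have h1 : Tendsto (fun m : ℕ => (T - t₀) / ((m : ℝ) + 1)) atTop (𝓝 0) :=
      tendsto_const_nhds.div_atTop (tendsto_natCast_atTop_atTop.atTop_add tendsto_const_nhds)
    have h2 := h1.const_add t₀
    rwa [add_zero] at h2
  have hSm : ∀ᵐ x ∂(mref τ), ∀ m, 0 < um m → (∀ k, good Φ (τ k) (x k).1.2 (x k).2) →
      (∀ k, ordd (τ k) (um m) (x k).2) →
      Tendsto (fun n => surv Φ (εs n) L f₀ (trees Φ (εs n) (germs τ x)) (um m)) atTop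
        (𝓝 (∏ k, legW Φ (K.leg L) (τ k) (um m) (x k).1 (x k).2)) := by
    rw [ae_all_iff]
    intro m
    by_cases hm : 0 < um m
    · filter_upwards [hS εs hε hε0 (um m) ⟨hm, hum1 m⟩] with x hx _
      exact hx
    · exact Eventually.of_forall fun x h' => absurd h' hm
  filter_upwards [hSm, hR εs hε hε0, ae_PW hΦ τ, ae_root_ne τ t₀, ae_stm_ne τ t₀] with x hx1 hx2
    hx3 hx4 hx5
  refine defect_tendsto K hL h hc' hC htie hε hε0 hts ht τ x hx5 (hx3 εs hε hε0) hx4 ?_ ?_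
  · intro hg ho b hb
    by_cases htT : t₀ = T
    · -- the final time
      have h0 : 0 < um 0 := by
        rw [hum]
        simp only
        rw [htT, sub_self, zero_div, add_zero]
        exact hT
      have h1 : um 0 = T := by
        rw [hum]
        simp only
        rw [htT, sub_self, zero_div, add_zero]
      have h2 := hx1 0 h0 hg fun k => ordd_mono (τ k) (hum0 0) (ho k)
      rw [h1] at h2
      rw [htT] at hb
      filter_upwards [h2.eventually_const_lt hb] with n hn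
      exact hn.le.trans (surv_anti (hts n).2)
    · have hlt : t₀ < T := lt_of_le_of_ne ht₀.2 htT
      have hpos : ∀ m, t₀ < um m := fun m => by
        have h1 : 0 < (T - t₀) / ((m : ℝ) + 1) := div_pos (sub_pos.2 hlt) (by positivity)
        rw [hum]
        simp only
        linarith
      have h1 : Tendsto (fun m => ∏ k, legW Φ (K.leg L) (τ k) (um m) (x k).1 (x k).2) atTop
          (𝓝 (∏ k, legW Φ (K.leg L) (τ k) t₀ (x k).1 (x k).2)) :=
        tendsto_prod_ne_top (fun k => tendsto_legW K hL hum1 humt (τ k) (x k).1 (ho k))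
          fun k => ne_top_of_le_ne_top ENNReal.one_ne_top
            (legW_le_one (fun s t l => leg_le_one K L s t l) _ _ _ _)
      obtain ⟨m, hm⟩ := (h1.eventually_const_lt hb).exists
      have h2 := hx1 m (ht₀.1.trans_lt (hpos m)) hg fun k => ordd_mono (τ k) (hum0 m) (ho k)
      filter_upwards [h2.eventually_const_lt hm, ht.eventually_lt_const (hpos m)] with n hn hn'
      exact hn.le.trans (surv_anti hn'.le)
  · intro hg ho
    have h1 := hx2 hg fun k => ordd_mono (τ k) ht₀.2 (ho k)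
    exact tendsto_of_tendsto_of_tendsto_of_le_of_le tendsto_const_nhds h1 (fun _ => zero_le)
      fun n => relP_mono (hts n).2

/-- **`AliveENN` from the limit of the survival probabilities of forests.** -/
theorem aliveENN_of_lim (h : GoodDatum f₀ κ) (hc : Continuous f₀) (hT : 0 < T) (s : ℕ)
    (hS : ∀ᶠ L : ℕ in atTop, ∀ τ ∈ Fintype.piFinset (fun _ : Fin s => shapes L),
      SurvLim K L τ ∧ RelLim Φ f₀ T L τ) :
    AliveENN f₀ T (uK K) (AL Φ) (MY Φ) s := by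
  refine aliveENN_of_core K h ?_
  filter_upwards [hS, eventually_ge_atTop K.L₀] with L hL hL0 τ hτ
  exact core_of_lim K (hL0.trans (Nat.le_succ L)) h hc hT τ (hL τ hτ).1 (hL τ hτ).2

end Lim

end Vale.Agent.P119.END
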