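import Vale.Agent.P119.END.AliveLaw

/-!
# P119, `AliveENN`: the alive tuples in the backward parameters (`helper576`)

* `germs τ x`: the germs of the trees; `Bx`: the probability that all the trees of the tuple live;
* `alive_ge_param`: lower bound for the alive tuples.
-/

open MeasureTheory Set Filter Topology
open scoped ENNReal

noncomputable section

namespace Vale.Agent.P119.END

open GC M CTree KT ML

variable {Φ : E3 → ℝ} {ε : ℝ} {L s : ℕ} {t : ℝ} {f₀ : Ph → ℝ} {κ : ℝ}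

/-- The germs of the trees with given backward parameters. -/
def germs (τ : Fin s → Shape) (x : ∀ k, Ph × PD (τ k)) : List TG :=
  List.ofFn fun k => (⟨τ k, ((x k).1, 0), (x k).2⟩ : TG)

theorem lat_zero_snd (ε : ℝ) (l : Ph) : lat ε (l, 0) = l := by
  unfold lat
  simp

theorem tree_germ (τ : Shape) (l : Ph) (p : PD τ) :
    (⟨τ, (l, 0), p⟩ : TG).tree Φ ε = mkL τ (bk Φ ε τ l p) := by
  rw [TG.tree_def]
  simp only [lat_zero_snd]

theorem trees_germs (τ : Fin s → Shape) (x : ∀ k, Ph × PD (τ k)) :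
    trees Φ ε (germs τ x) = List.ofFn fun k => mkL (τ k) (bk Φ ε (τ k) (x k).1 (x k).2) := by
  unfold trees germs
  rw [List.map_ofFn]
  congr 1
  funext k
  exact tree_germ _ _ _

/-- The leaves of the tuple with given backward parameters. -/
def zx (Φ : E3 → ℝ) (ε : ℝ) (τ : Fin s → Shape) (x : ∀ k, Ph × PD (τ k)) : Fin (nlv τ) → Ph :=
  joinPi (fun k => (τ k).card) (bkt Φ ε τ x)

theorem blk_joinPi (τ : Fin s → Shape) (y : ∀ k, Fin (τ k).card → Ph) (k : Fin s) :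
    blk τ (joinPi (fun k => (τ k).card) y) k = y k := by
  funext i
  exact joinPi_apply (fun k => (τ k).card) y k i

theorem ftree_joinPi (τ : Fin s → Shape) (y : ∀ k, Fin (τ k).card → Ph) (k : Fin s) :
    ftree τ (joinPi (fun k => (τ k).card) y) k = (τ k).ord (y k) := by
  unfold ftree
  rw [blk_joinPi]

theorem ftree_zx (τ : Fin s → Shape) (x : ∀ k, Ph × PD (τ k)) (k : Fin s) :
    ftree τ (zx Φ ε τ x) k = mkL (τ k) (bk Φ ε (τ k) (x k).1 (x k).2) := by
  unfold zx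
  rw [ftree_joinPi, mkL_eq_ord]
  rfl

theorem measurable_zx (hΦ : IsPotential Φ) (ε : ℝ) (τ : Fin s → Shape) :
    Measurable (zx Φ ε τ) :=
  (measurable_joinPi _).comp (measurable_bkt hΦ ε τ)

/-- The integral over the rest of the configuration. -/
def Cz (Φ : E3 → ℝ) (ε : ℝ) (L : ℕ) (f₀ : Ph → ℝ) (t : ℝ) (a : (Fin s → Ph) → ℝ≥0∞)
    (τ : Fin s → Shape) (z : Fin (nlv τ) → Ph) : ℝ≥0∞ :=
  {z : Fin (nlv τ) → Ph | PW (Cx ε) z}.indicator (fun z => ∫⁻ c in {c | Cmp (Cx ε) z (pts c)},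
    fun_ Φ ε L t a τ z (wz z (pts c)) ∂(PP f₀ ε)) z

/-- The probability that all the trees of the tuple live. -/
def Bx (Φ : E3 → ℝ) (ε : ℝ) (L : ℕ) (f₀ : Ph → ℝ) (t : ℝ) (τ : Fin s → Shape)
    (x : ∀ k, Ph × PD (τ k)) : ℝ≥0∞ := Cz Φ ε L f₀ t (fun _ => 1) τ (zx Φ ε τ x)

theorem measurableSet_cmp_slice (ε : ℝ) {n : ℕ} (z : Fin n → Ph) :
    MeasurableSet {c : Conf Ph | Cmp (Cx ε) z (pts c)} :=
  measurable_prodMk_left (measurableSet_Cmp (measurableSet_Cx ε) n)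

theorem measurable_Cz (hΦ : IsPotential Φ) (h : GoodDatum f₀ κ) (hε : 0 < ε)
    {a : (Fin s → Ph) → ℝ≥0∞} (ha : Measurable a) (τ : Fin s → Shape) :
    Measurable (Cz Φ ε L f₀ t a τ) := by
  have hpr := isProbability_PP (ε := ε) h
  unfold Cz
  refine Measurable.indicator ?_ (measurableSet_PW (measurableSet_Cx ε))
  have h1 := measurable_fun (L := L) (t := t) hΦ hε ha τ
  have h2 : Measurable fun p : (Fin (nlv τ) → Ph) × Conf Ph =>
      {p : (Fin (nlv τ) → Ph) × Conf Ph | Cmp (Cx ε) p.1 (pts p.2)}.indicator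
        (fun p => fun_ Φ ε L t a τ p.1 (wz p.1 (pts p.2))) p :=
    h1.indicator (measurableSet_Cmp (measurableSet_Cx ε) (nlv τ))
  have h3 := h2.lintegral_prod_right' (ν := PP f₀ ε)
  have e : (fun z : Fin (nlv τ) → Ph => ∫⁻ c in {c | Cmp (Cx ε) z (pts c)},
      fun_ Φ ε L t a τ z (wz z (pts c)) ∂(PP f₀ ε)) = fun z => ∫⁻ c,
      {p : (Fin (nlv τ) → Ph) × Conf Ph | Cmp (Cx ε) p.1 (pts p.2)}.indicator
        (fun p => fun_ Φ ε L t a τ p.1 (wz p.1 (pts p.2))) (z, c) ∂(PP f₀ ε) := by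
    funext z
    rw [← lintegral_indicator (measurableSet_cmp_slice ε z)]
    refine lintegral_congr fun c => ?_
    by_cases hc : Cmp (Cx ε) z (pts c)
    · rw [indicator_of_mem (show c ∈ {c : Conf Ph | Cmp (Cx ε) z (pts c)} from hc),
        indicator_of_mem (show (z, c) ∈ {p : (Fin (nlv τ) → Ph) × Conf Ph |
          Cmp (Cx ε) p.1 (pts p.2)} from hc)]
    · rw [indicator_of_notMem (show c ∉ {c : Conf Ph | Cmp (Cx ε) z (pts c)} from hc),
        indicator_of_notMem (show (z, c) ∉ {p : (Fin (nlv τ) → Ph) × Conf Ph |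
          Cmp (Cx ε) p.1 (pts p.2)} from hc)]
  rw [e]
  exact h3

theorem measurable_Bx (hΦ : IsPotential Φ) (h : GoodDatum f₀ κ) (hε : 0 < ε)
    (τ : Fin s → Shape) : Measurable (Bx Φ ε L f₀ t τ) :=
  (measurable_Cz hΦ h hε measurable_const τ).comp (measurable_zx hΦ ε τ)

theorem Bx_le_one (h : GoodDatum f₀ κ) (τ : Fin s → Shape) (x : ∀ k, Ph × PD (τ k)) :
    Bx Φ ε L f₀ t τ x ≤ 1 := by
  have hpr := isProbability_PP (ε := ε) h
  unfold Bx Cz
  by_cases hz : zx Φ ε τ x ∈ {z : Fin (nlv τ) → Ph | PW (Cx ε) z}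
  · rw [indicator_of_mem hz]
    refine (lintegral_mono (g := fun _ => 1) fun c => ?_).trans ?_
    · unfold fun_
      split_ifs
      · exact le_rfl
      · exact zero_le
    · rw [lintegral_one, Measure.restrict_apply_univ]
      exact prob_le_one
  · rw [indicator_of_notMem hz]
    exact zero_le

/-- The test function factors out. -/
theorem Cz_zx (hΦ : IsPotential Φ) (hε : 0 < ε) {a : (Fin s → Ph) → ℝ≥0∞} (τ : Fin s → Shape)
    {x : ∀ k, Ph × PD (τ k)} (hx : ∀ k, good Φ (τ k) (x k).1.2 (x k).2)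
    (ha : a (fun k => KU.free t (x k).1) ≠ ∞) :
    Cz Φ ε L f₀ t a τ (zx Φ ε τ x) = a (fun k => KU.free t (x k).1) * Bx Φ ε L f₀ t τ x := by
  unfold Bx Cz
  by_cases hz : zx Φ ε τ x ∈ {z : Fin (nlv τ) → Ph | PW (Cx ε) z}
  · rw [indicator_of_mem hz, indicator_of_mem hz, ← lintegral_const_mul' _ _ ha]
    refine lintegral_congr fun c => ?_
    unfold fun_
    by_cases hal : allive Φ ε L t τ (zx Φ ε τ x) (wz (zx Φ ε τ x) (pts c))
    · rw [if_pos hal, if_pos hal, mul_one]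
      congr 1
      funext k
      have h1 := hal k
      rw [ftree_zx] at h1 ⊢
      rw [st_after hΦ hε h1.1.ok h1.2, ln_mkL_bk hΦ hε.ne' (τ k) (x k).1 (x k).2 (hx k)]
    · rw [if_neg hal, if_neg hal, mul_zero]
  · rw [indicator_of_notMem hz, indicator_of_notMem hz, mul_zero]

/-- **Lower bound for the alive tuples in the backward parameters.** -/
theorem alive_ge_param (hΦ : IsPotential Φ) (h : GoodDatum f₀ κ) (hε : 0 < ε)
    {a : (Fin s → Ph) → ℝ≥0∞} (ha : Measurable a) (ha1 : ∀ z, a z ≤ 1) :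
    ENNReal.ofReal (mu ε) ^ s * ∑ τ ∈ Fintype.piFinset (fun _ : Fin s => shapes L),
      ∫⁻ x, a (fun k => KU.free t (x k).1) *
        ((∏ k, tw Φ ε (gE f₀) (τ k) (x k)) * Bx Φ ε L f₀ t τ x) ∂(mref τ) ≤
    ∫⁻ c, ∑ z ∈ tup s (pts c), {z : Fin s → Ph | ∀ k, AL Φ L ε c t (z k)}.indicator
      (fun z => a (fun k => MY Φ L ε c t (z k))) z ∂(PP f₀ ε) := by
  have hfi := isFiniteMeasure_inten (ε := ε) h
  refine le_trans ?_ (alive_ge (L := L) (t := t) hΦ h hε ha)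
  rw [Finset.mul_sum]
  refine Finset.sum_le_sum fun τ _ => ?_
  have hCm := measurable_Cz (L := L) (t := t) hΦ h hε ha τ
  have e1 : ∫⁻ z in {z | PW (Cx ε) z}, ∫⁻ c in {c | Cmp (Cx ε) z (pts c)},
      fun_ Φ ε L t a τ z (wz z (pts c)) ∂(PP f₀ ε) ∂(Measure.pi fun _ => inten f₀ ε) =
      ∫⁻ z, Cz Φ ε L f₀ t a τ z ∂(Measure.pi fun _ : Fin (nlv τ) => inten f₀ ε) := by
    unfold Cz
    rw [lintegral_indicator (measurableSet_PW (measurableSet_Cx ε))]
  have e2 : ∫⁻ z, Cz Φ ε L f₀ t a τ z ∂(Measure.pi fun _ : Fin (nlv τ) => inten f₀ ε) =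
      ∫⁻ y, Cz Φ ε L f₀ t a τ (joinPi (fun k => (τ k).card) y)
        ∂(Measure.pi fun k => Measure.pi fun _ : Fin (τ k).card => inten f₀ ε) :=
    ((joinPi_preserving (fun k => (τ k).card) (inten f₀ ε)).lintegral_comp hCm).symm
  have hFm : Measurable fun y : ∀ k, Fin (τ k).card → Ph =>
      Cz Φ ε L f₀ t a τ (joinPi (fun k => (τ k).card) y) := hCm.comp (measurable_joinPi _)
  rw [e1, e2]
  have e3 := lintegral_tuple hΦ h hε τ hFm
  refine le_trans (le_of_eq ?_) (lintegral_mono (indicator_le_self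
    {y : ∀ k, Fin (τ k).card → Ph | ∀ k, ok Φ ε ((τ k).ord (y k))} _))
  rw [e3]
  congr 1
  refine lintegral_congr fun x => ?_
  by_cases hx : ∏ k, tw Φ ε (gE f₀) (τ k) (x k) = 0
  · rw [hx, zero_mul, zero_mul, mul_zero]
  · have hg : ∀ k, good Φ (τ k) (x k).1.2 (x k).2 := by
      intro k
      have h1 : tw Φ ε (gE f₀) (τ k) (x k) ≠ 0 := fun h0 => hx
        (Finset.prod_eq_zero (Finset.mem_univ k) h0)
      unfold tw at h1
      exact (wt_ne_zero_iff (τ k) (x k).1.2 (x k).2).1 (left_ne_zero_of_mul h1)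
    have h2 := Cz_zx (L := L) (f₀ := f₀) (t := t) (a := a) hΦ hε τ hg
      ((ha1 _).trans_lt ENNReal.one_lt_top).ne
    have h3 : Cz Φ ε L f₀ t a τ (joinPi (fun k => (τ k).card) (bkt Φ ε τ x)) =
        a (fun k => KU.free t (x k).1) * Bx Φ ε L f₀ t τ x := h2
    rw [h3]
    ring

end Vale.Agent.P119.END
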