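import Vale.Agent.P119.END.Final
import Vale.Agent.P119.PB.Extract
import Vale.Agent.P119.MM.Stat

/-!
# Extraction of `s`-tuples of living trees (first step of `AliveENN`)
-/

open MeasureTheory Set Filter Topology
open scoped ENNReal

noncomputable section

namespace Vale.Agent.P119.END

open GC M CTree

variable {Φ : E3 → ℝ} {ε : ℝ} {L s : ℕ} {t : ℝ}

/-- The number of leaves of a tuple of shapes. -/
def nlv (τ : Fin s → Shape) : ℕ := ∑ k, (τ k).card

/-- The leaves of the `k`-th tree. -/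
def blk (τ : Fin s → Shape) (z : Fin (nlv τ) → Ph) (k : Fin s) : Fin (τ k).card → Ph :=
  fun i => z (finSigmaFinEquiv ⟨k, i⟩)

/-- The `k`-th tree. -/
def ftree (τ : Fin s → Shape) (z : Fin (nlv τ) → Ph) (k : Fin s) : CTree := (τ k).ord (blk τ z k)

theorem blk_injective (τ : Fin s → Shape) {z z' : Fin (nlv τ) → Ph}
    (h : ∀ k, blk τ z k = blk τ z' k) : z = z' := by
  funext j
  obtain ⟨⟨k, i⟩, rfl⟩ := finSigmaFinEquiv.surjective j
  exact congrFun (h k) i

theorem leaves_ftree (τ : Fin s → Shape) (z : Fin (nlv τ) → Ph) (k : Fin s) :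
    (ftree τ z k).leaves = src '' range (blk τ z k) := Shape.leaves_ord _ _

theorem disjoint_ftree (τ : Fin s → Shape) {z : Fin (nlv τ) → Ph} (hz : Function.Injective z)
    {k l : Fin s} (hkl : k ≠ l) : Disjoint (ftree τ z k).leaves (ftree τ z l).leaves := by
  rw [leaves_ftree, leaves_ftree, disjoint_image_iff src_injective, Set.disjoint_left]
  rintro x ⟨i, rfl⟩ ⟨j, hj⟩
  have h1 := finSigmaFinEquiv.injective (hz hj)
  exact hkl (congrArg Sigma.fst h1).symm

/-- The root particle of an ordinary tree. -/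
def rpt (T : CTree) : Ph := T.root.2.1

theorem src_rpt {T : CTree} {w : Set Ph} (h : T.leaves ⊆ world w) : src (rpt T) = T.root := by
  obtain ⟨z, -, hz⟩ := h T.root_mem_leaves
  unfold rpt
  rw [← hz]
  rfl

/-- All the trees of the tuple live at time `t` and fly. -/
def allive (Φ : E3 → ℝ) (ε : ℝ) (L : ℕ) (t : ℝ) (τ : Fin s → Shape) (z : Fin (nlv τ) → Ph)
    (W : Set Ph) : Prop :=
  ∀ k, lives Φ ε L (world W) (ftree τ z k) t ∧ ext Φ ε (ftree τ z k) ≤ t

open Classical in
/-- The functional of a tuple of trees. -/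
def fun_ (Φ : E3 → ℝ) (ε : ℝ) (L : ℕ) (t : ℝ) (a : (Fin s → Ph) → ℝ≥0∞) (τ : Fin s → Shape)
    (z : Fin (nlv τ) → Ph) (W : Set Ph) : ℝ≥0∞ :=
  if allive Φ ε L t τ z W then a (fun k => st Φ ε (ftree τ z k) t) else 0

/-- **Tuples of living trees without common leaves are tuples of living particles.** -/
theorem sum_trees_le (hΦ : IsPotential Φ) (hε : 0 < ε) (a : (Fin s → Ph) → ℝ≥0∞) (c : Conf Ph) :
    ∑ τ ∈ Fintype.piFinset (fun _ : Fin s => shapes L), ∑ z ∈ tup (nlv τ) (pts c),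
      fun_ Φ ε L t a τ z (pts c : Set Ph) ≤
    ∑ z ∈ tup s (pts c), {z : Fin s → Ph | ∀ k, AL Φ L ε c t (z k)}.indicator
      (fun z => a (fun k => MY Φ L ε c t (z k))) z := by
  classical
  have hfin : (world (pts c : Set Ph)).Finite := ((pts c).finite_toSet).image _
  rw [Finset.sum_sigma']
  set S := (Fintype.piFinset (fun _ : Fin s => shapes L)).sigma fun τ => tup (nlv τ) (pts c) with hS
  set S' := S.filter fun p => allive Φ ε L t p.1 p.2 (pts c : Set Ph) with hS'
  set r : (Σ τ : Fin s → Shape, (Fin (nlv τ) → Ph)) → (Fin s → Ph) :=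
    fun p k => rpt (ftree p.1 p.2 k) with hr
  set g : (Fin s → Ph) → ℝ≥0∞ := fun z => {z : Fin s → Ph | ∀ k, AL Φ L ε c t (z k)}.indicator
      (fun z => a (fun k => MY Φ L ε c t (z k))) z with hg
  have h1 : ∀ p ∈ S', fun_ Φ ε L t a p.1 p.2 (pts c : Set Ph) = g (r p) := by
    intro p hp
    obtain ⟨hp1, hp2⟩ := Finset.mem_filter.1 hp
    have h2 : ∀ k, stat Φ ε L (world (pts c : Set Ph)) (src (r p k)) t =
        some (ftree p.1 p.2 k) := by
      intro k
      rw [stat_eq_some_iff hΦ hε hfin]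
      exact ⟨(src_rpt (hp2 k).1.sub).symm, (hp2 k).1⟩
    have h3 : ∀ k, AL Φ L ε c t (r p k) := fun k => ⟨_, h2 k, (hp2 k).2⟩
    have h4 : ∀ k, MY Φ L ε c t (r p k) = st Φ ε (ftree p.1 p.2 k) t := fun k => mpos_eq (h2 k)
    rw [hg]
    simp only
    rw [indicator_of_mem (show r p ∈ {z : Fin s → Ph | ∀ k, AL Φ L ε c t (z k)} from h3)]
    unfold fun_
    rw [if_pos hp2]
    simp only [h4]
  have h5 : ∑ p ∈ S, fun_ Φ ε L t a p.1 p.2 (pts c : Set Ph) = ∑ p ∈ S', g (r p) := by
    rw [← Finset.sum_congr rfl h1, hS', Finset.sum_filter]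
    refine Finset.sum_congr rfl fun p _ => ?_
    split_ifs with h
    · rfl
    · unfold fun_
      rw [if_neg h]
  have hinj : Set.InjOn r S' := by
    intro p hp q hq hpq
    have hp' := (Finset.mem_filter.1 (Finset.mem_coe.1 hp)).2
    have hq' := (Finset.mem_filter.1 (Finset.mem_coe.1 hq)).2
    have h6 : ∀ k, ftree p.1 p.2 k = ftree q.1 q.2 k := by
      intro k
      refine lives_unique hΦ hε hfin (hp' k).1 (hq' k).1 ?_
      rw [← src_rpt (hp' k).1.sub, ← src_rpt (hq' k).1.sub]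
      exact congrArg src (congrFun hpq k)
    obtain ⟨τ, z⟩ := p
    obtain ⟨τ', z'⟩ := q
    have h7 : τ = τ' := funext fun k => Shape.mk_shape_unique (h6 k)
    subst h7
    have h8 : z = z' := blk_injective τ fun k => Shape.ord_injective (τ k) (h6 k)
    rw [h8]
  have hsub : S'.image r ⊆ tup s (pts c) := by
    intro y hy
    obtain ⟨p, hp, rfl⟩ := Finset.mem_image.1 hy
    obtain ⟨hp1, hp2⟩ := Finset.mem_filter.1 hp
    obtain ⟨-, hp3⟩ := Finset.mem_sigma.1 hp1
    refine mem_tup.2 ⟨fun k => ?_, fun k l hkl => ?_⟩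
    · have h6 := (hp2 k).1.sub (ftree p.1 p.2 k).root_mem_leaves
      rw [← src_rpt (hp2 k).1.sub] at h6
      obtain ⟨x, hx, hxe⟩ := h6
      have h7 : rpt (ftree p.1 p.2 k) = x := src_injective hxe.symm
      change rpt (ftree p.1 p.2 k) ∈ pts c
      rw [h7]
      exact hx
    · by_contra hne
      have h6 : (ftree p.1 p.2 k).root = (ftree p.1 p.2 l).root := by
        rw [← src_rpt (hp2 k).1.sub, ← src_rpt (hp2 l).1.sub]
        exact congrArg src hkl
      have h7 := disjoint_ftree p.1 (mem_tup.1 hp3).2 hne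
      exact Set.disjoint_left.1 h7 (ftree p.1 p.2 k).root_mem_leaves
        (h6 ▸ (ftree p.1 p.2 l).root_mem_leaves)
  calc ∑ p ∈ S, fun_ Φ ε L t a p.1 p.2 (pts c : Set Ph) = ∑ p ∈ S', g (r p) := h5
    _ = ∑ y ∈ S'.image r, g y := (Finset.sum_image hinj).symm
    _ ≤ ∑ y ∈ tup s (pts c), g y := Finset.sum_le_sum_of_subset hsub

/-- The world of a tuple and the rest. -/
def wz {n : ℕ} (z : Fin n → Ph) (w : Finset Ph) : Set Ph := (w : Set Ph) ∪ range z

theorem wz_sdiff [DecidableEq Ph] {n : ℕ} {z : Fin n → Ph} {w : Finset Ph} (hz : z ∈ tup n w) :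
    wz z (w \ Finset.univ.image z) = (w : Set Ph) := by
  ext x
  unfold wz
  rw [Finset.coe_sdiff, Finset.coe_image, Finset.coe_univ, image_univ, mem_union, Set.mem_sdiff]
  constructor
  · rintro (⟨h, -⟩ | ⟨i, rfl⟩)
    · exact h
    · exact (mem_tup.1 hz).1 i
  · intro h
    by_cases h' : x ∈ range z
    · exact Or.inr h'
    · exact Or.inl ⟨h, h'⟩

theorem measurable_blk (τ : Fin s → Shape) (k : Fin s) : Measurable fun z => blk τ z k :=
  measurable_pi_iff.2 fun _ => measurable_pi_apply _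

theorem measurable_ftree (τ : Fin s → Shape) (k : Fin s) : Measurable fun z => ftree τ z k :=
  (MM.measurable_ord (τ k)).comp (measurable_blk τ k)

theorem rs_world (n : ℕ) :
    MM.RS fun p : (Fin n → Ph) × Conf Ph => world (wz p.1 (pts p.2)) :=
  ((MM.RS.pts measurable_snd).union (MM.RS.tuple measurable_fst)).world

theorem finite_world {n : ℕ} (z : Fin n → Ph) (w : Finset Ph) : (world (wz z w)).Finite :=
  (w.finite_toSet.union (finite_range z)).image _

theorem measurableSet_allive (hΦ : IsPotential Φ) (hε : 0 < ε) (τ : Fin s → Shape) :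
    MeasurableSet {p : (Fin (nlv τ) → Ph) × Conf Ph | allive Φ ε L t τ p.1 (wz p.1 (pts p.2))} := by
  have h : ∀ k, MeasurableSet {p : (Fin (nlv τ) → Ph) × Conf Ph |
      lives Φ ε L (world (wz p.1 (pts p.2))) (ftree τ p.1 k) t ∧
        ext Φ ε (ftree τ p.1 k) ≤ t} := by
    intro k
    have hT : Measurable fun p : (Fin (nlv τ) → Ph) × Conf Ph => ftree τ p.1 k :=
      (measurable_ftree τ k).comp measurable_fst
    refine MeasurableSet.inter ?_ ?_
    · exact MM.measurableSet_tree_lives hΦ hε (rs_world _) (fun p => finite_world _ _) hT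
        (measurable_const (a := t))
    · exact measurableSet_le ((measurable_ext hΦ hε.ne').comp hT) measurable_const
  have e : {p : (Fin (nlv τ) → Ph) × Conf Ph | allive Φ ε L t τ p.1 (wz p.1 (pts p.2))} =
      ⋂ k, {p : (Fin (nlv τ) → Ph) × Conf Ph |
      lives Φ ε L (world (wz p.1 (pts p.2))) (ftree τ p.1 k) t ∧
        ext Φ ε (ftree τ p.1 k) ≤ t} := by
    ext p
    simp only [mem_iInter]
    exact Iff.rfl
  rw [e]
  exact MeasurableSet.iInter h

theorem measurable_fun (hΦ : IsPotential Φ) (hε : 0 < ε) {a : (Fin s → Ph) → ℝ≥0∞}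
    (ha : Measurable a) (τ : Fin s → Shape) :
    Measurable fun p : (Fin (nlv τ) → Ph) × Conf Ph =>
      fun_ Φ ε L t a τ p.1 (wz p.1 (pts p.2)) := by
  classical
  unfold fun_
  refine Measurable.ite (measurableSet_allive hΦ hε τ) ?_ measurable_const
  refine ha.comp (measurable_pi_iff.2 fun k => ?_)
  exact MM.meas_st hΦ hε.ne' ((measurable_ftree τ k).comp measurable_fst)
    (measurable_const (a := t))

variable {f₀ : Ph → ℝ} {κ : ℝ}

/-- **Extraction of tuples of living trees.** -/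
theorem alive_ge (hΦ : IsPotential Φ) (h : GoodDatum f₀ κ) (hε : 0 < ε)
    {a : (Fin s → Ph) → ℝ≥0∞} (ha : Measurable a) :
    ∑ τ ∈ Fintype.piFinset (fun _ : Fin s => shapes L),
      ∫⁻ z in {z | PW (Cx ε) z}, ∫⁻ c in {c | Cmp (Cx ε) z (pts c)},
        fun_ Φ ε L t a τ z (wz z (pts c)) ∂(PP f₀ ε) ∂(Measure.pi fun _ => inten f₀ ε) ≤
    ∫⁻ c, ∑ z ∈ tup s (pts c), {z : Fin s → Ph | ∀ k, AL Φ L ε c t (z k)}.indicator
      (fun z => a (fun k => MY Φ L ε c t (z k))) z ∂(PP f₀ ε) := by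
  classical
  have := isFiniteMeasure_inten (ε := ε) h
  have h1 : ∀ τ : Fin s → Shape, ∫⁻ z in {z | PW (Cx ε) z}, ∫⁻ c in {c | Cmp (Cx ε) z (pts c)},
        fun_ Φ ε L t a τ z (wz z (pts c)) ∂(PP f₀ ε) ∂(Measure.pi fun _ => inten f₀ ε) =
      ∫⁻ c, ∑ z ∈ tup (nlv τ) (pts c), fun_ Φ ε L t a τ z
        (wz z (pts c \ Finset.univ.image z)) ∂(PP f₀ ε) := fun τ =>
    (gnz_PP h hε.le (nlv τ) (F := fun z w => fun_ Φ ε L t a τ z (wz z w))
      (measurable_fun hΦ hε ha τ)).symm
  simp only [h1]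
  rw [← lintegral_finsetSum']
  · refine lintegral_mono fun c => ?_
    refine le_trans (le_of_eq ?_) (sum_trees_le hΦ hε a c)
    refine Finset.sum_congr rfl fun τ _ => Finset.sum_congr rfl fun z hz => ?_
    rw [wz_sdiff hz]
  · intro τ _
    have h2 := measurable_tup_sum (ν := inten f₀ ε) (measurableSet_Cx ε) (Cx_irrefl hε.le) (nlv τ)
      (F := fun z w => fun_ Φ ε L t a τ z (wz z w)) (measurable_fun hΦ hε ha τ)
    exact h2

end Vale.Agent.P119.END
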