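import Vale.Agent.P119.END.Target
import Vale.Agent.P119.GC.Count
import Vale.Agent.P119.KE.Family

/-!
# Assembly: lower bounds of the real gas from the M-world

`al L ε c t z` : the particle `z` of the configuration `c` is alive in the M-world of depth `L` at
time `t`; `y L ε c t z` its M-state.  The kinetic limit of alive tuples (`Alive`) and the fact that few
alive particles have a real state which differs from their M-state (`Path`) imply `LowerENN`.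
-/

open MeasureTheory Set Filter Topology
open scoped ENNReal

noncomputable section

namespace Vale.Agent.P119.END

open GC

variable {f₀ : Ph → ℝ} {κ : ℝ} {Φ : E3 → ℝ} {T : ℝ} {f : ℝ → Ph → ℝ}

/-- Particles of a configuration that are alive and predicted wrongly. -/
def wrong (Φ : E3 → ℝ) (ε t : ℝ) (al : Conf Ph → Ph → Prop) (y : Conf Ph → Ph → Ph)
    (c : Conf Ph) : Finset Ph := by
  classical
  exact (pts c).filter fun z => al c z ∧ RW.R Φ ε (pts c) t z ≠ y c z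

theorem mem_wrong {ε t : ℝ} {al : Conf Ph → Ph → Prop} {y : Conf Ph → Ph → Ph}
    {c : Conf Ph} {z : Ph} :
    z ∈ wrong Φ ε t al y c ↔ z ∈ pts c ∧ al c z ∧ RW.R Φ ε (pts c) t z ≠ y c z := by
  classical
  simp [wrong]

/-- The alive tuples have asymptotically the densities `U^{⊗ s}`. -/
def AliveENN (f₀ : Ph → ℝ) (T : ℝ) (U : ℕ → ℝ → Ph → ℝ≥0∞)
    (al : ℕ → ℝ → Conf Ph → ℝ → Ph → Prop) (y : ℕ → ℝ → Conf Ph → ℝ → Ph → Ph) (s : ℕ) : Prop :=
  ∀ δ : ℝ, 0 < δ → ∀ᶠ L in atTop, ∀ᶠ ε in 𝓝[>] (0 : ℝ), ∀ t ∈ Icc 0 T,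
    ∀ a : (Fin s → Ph) → ℝ≥0∞, Measurable a → (∀ z, a z ≤ 1) →
      ∫⁻ z, a z * ∏ k, U L t (z k) ≤
        (ENNReal.ofReal (mu ε ^ s))⁻¹ *
          ∫⁻ c, ∑ z ∈ tup s (pts c), {z : Fin s → Ph | ∀ k, al L ε c t (z k)}.indicator
            (fun z => a (fun k => y L ε c t (z k))) z ∂(PP f₀ ε) +
        ENNReal.ofReal δ

/-- Few alive particles are predicted wrongly. -/
def PathENN (Φ : E3 → ℝ) (f₀ : Ph → ℝ) (T : ℝ)
    (al : ℕ → ℝ → Conf Ph → ℝ → Ph → Prop) (y : ℕ → ℝ → Conf Ph → ℝ → Ph → Ph) : Prop :=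
  ∀ δ : ℝ, 0 < δ → ∀ᶠ L in atTop, ∀ᶠ ε in 𝓝[>] (0 : ℝ), ∀ t ∈ Icc 0 T,
    (ENNReal.ofReal (mu ε))⁻¹ * ∫⁻ c, ((wrong Φ ε t (fun c => al L ε c t)
      (fun c => y L ε c t) c).card : ℝ≥0∞) ∂(PP f₀ ε) ≤ ENNReal.ofReal δ

theorem sum_alive_le {ε t : ℝ} {al : Conf Ph → Ph → Prop} {y : Conf Ph → Ph → Ph} {s : ℕ}
    {a : (Fin s → Ph) → ℝ≥0∞} (ha : ∀ z, a z ≤ 1) (c : Conf Ph) :
    ∑ z ∈ tup s (pts c), {z : Fin s → Ph | ∀ k, al c (z k)}.indicator
        (fun z => a (fun k => y c (z k))) z ≤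
      ∑ z ∈ tup s (pts c), a (fun k => RW.R Φ ε (pts c) t (z k)) +
        ((tupBad s (pts c) (wrong Φ ε t al y c)).card : ℝ≥0∞) := by
  classical
  have h1 : ((tupBad s (pts c) (wrong Φ ε t al y c)).card : ℝ≥0∞) =
      ∑ z ∈ tup s (pts c), (if z ∈ tupBad s (pts c) (wrong Φ ε t al y c) then 1 else 0) := by
    rw [Finset.sum_ite_mem, Finset.card_eq_sum_ones, Nat.cast_sum]
    simp only [Nat.cast_one]
    congr 1
    exact (Finset.inter_eq_right.2 fun z hz => (mem_tupBad.1 hz).1).symm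
  rw [h1, ← Finset.sum_add_distrib]
  refine Finset.sum_le_sum fun z hz => ?_
  by_cases h2 : ∀ k, al c (z k)
  swap
  · rw [indicator_of_notMem (show z ∉ {z : Fin s → Ph | ∀ k, al c (z k)} from h2)]
    exact zero_le
  rw [indicator_of_mem (show z ∈ {z : Fin s → Ph | ∀ k, al c (z k)} from h2)]
  split_ifs with h3
  · exact (ha _).trans le_add_self
  · rw [add_zero]
    have h4 : ∀ k, RW.R Φ ε (pts c) t (z k) = y c (z k) := by
      intro k
      by_contra hne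
      exact h3 (mem_tupBad.2 ⟨hz, k, mem_wrong.2 ⟨(mem_tup.1 hz).1 k, h2 k, hne⟩⟩)
    simp only [h4]
    exact le_rfl

/-- **Assembly.** -/
theorem lowerENN_of (hΦ : IsPotential Φ) (h : GoodDatum f₀ κ) {U : ℕ → ℝ → Ph → ℝ≥0∞}
    {al : ℕ → ℝ → Conf Ph → ℝ → Ph → Prop} {y : ℕ → ℝ → Conf Ph → ℝ → Ph → Ph} {s : ℕ}
    (hU : ∀ δ : ℝ, 0 < δ → ∀ᶠ L in atTop, ∀ t ∈ Icc 0 T, ∀ a : (Fin s → Ph) → ℝ≥0∞,
      (∀ z, a z ≤ 1) → ∫⁻ z, a z * ∏ k, ENNReal.ofReal (f t (z k)) ≤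
        (∫⁻ z, a z * ∏ k, U L t (z k)) + ENNReal.ofReal δ)
    (hal : AliveENN f₀ T U al y s) (hp : PathENN Φ f₀ T al y) : LowerENN Φ f₀ T f s := by
  intro δ hδ
  obtain ⟨A, hA, hAb⟩ := exists_tupBad_le h s (δ := δ / 4) (by positivity)
  obtain ⟨L, hL1, hL2, hL3⟩ := ((hU (δ / 4) (by positivity)).and ((hal (δ / 4) (by positivity)).and
    (hp (δ / (4 * A)) (by positivity)))).exists
  filter_upwards [hL2, hL3, self_mem_nhdsWithin,
    Ioo_mem_nhdsGT (show (0 : ℝ) < 1 by norm_num)] with ε hε2 hε3 hε hε1 t ht a ham ha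
  have hε : 0 < ε := hε
  obtain ⟨G, hG, hGe⟩ := exists_meas_functional (s := s) hΦ hε ht.1 ham
  have hRG : ∫⁻ c, ∑ z ∈ tup s (pts c), a (fun k => RW.R Φ ε (pts c) t (z k)) ∂(PP f₀ ε) =
      ∫⁻ c, G c ∂(PP f₀ ε) := by
    refine lintegral_congr_ae ?_
    filter_upwards [ae_excl f₀ ε] with c hc
    obtain ⟨N, Z⟩ := c
    exact (hGe N Z hc).2.symm
  set μs : ℝ≥0∞ := (ENNReal.ofReal (mu ε ^ s))⁻¹ with hμs
  set I : ℝ≥0∞ := ∫⁻ c, ((wrong Φ ε t (fun c => al L ε c t)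
      (fun c => y L ε c t) c).card : ℝ≥0∞) ∂(PP f₀ ε) with hI
  have h3 := hAb ε hε hε1.2.le (wrong Φ ε t (fun c => al L ε c t) (fun c => y L ε c t))
    (fun c z hz => (mem_wrong.1 hz).1)
  have h4 : ∫⁻ c, ∑ z ∈ tup s (pts c), {z : Fin s → Ph | ∀ k, al L ε c t (z k)}.indicator
      (fun z => a (fun k => y L ε c t (z k))) z ∂(PP f₀ ε) ≤
      ∫⁻ c, G c ∂(PP f₀ ε) + ∫⁻ c, ((tupBad s (pts c) (wrong Φ ε t (fun c => al L ε c t)
      (fun c => y L ε c t) c)).card : ℝ≥0∞) ∂(PP f₀ ε) := by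
    rw [← lintegral_add_left hG]
    refine lintegral_mono_ae ?_
    filter_upwards [ae_excl f₀ ε] with c hc
    refine (sum_alive_le (Φ := Φ) (ε := ε) (t := t) (al := fun c => al L ε c t)
      (y := fun c => y L ε c t) ha c).trans (le_of_eq ?_)
    congr 1
    obtain ⟨N, Z⟩ := c
    exact (hGe N Z hc).2.symm
  have h5 : ENNReal.ofReal A * ((ENNReal.ofReal (mu ε))⁻¹ * I) ≤ ENNReal.ofReal (δ / 4) := by
    calc ENNReal.ofReal A * ((ENNReal.ofReal (mu ε))⁻¹ * I)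
        ≤ ENNReal.ofReal A * ENNReal.ofReal (δ / (4 * A)) := by
          gcongr
          exact hε3 t ht
      _ = ENNReal.ofReal (δ / 4) := by
          rw [← ENNReal.ofReal_mul hA.le]
          congr 1
          field_simp
  rw [hRG]
  calc ∫⁻ z, a z * ∏ k, ENNReal.ofReal (f t (z k))
      ≤ (∫⁻ z, a z * ∏ k, U L t (z k)) + ENNReal.ofReal (δ / 4) := hL1 t ht a ha
    _ ≤ (μs * ∫⁻ c, ∑ z ∈ tup s (pts c), {z : Fin s → Ph | ∀ k, al L ε c t (z k)}.indicator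
          (fun z => a (fun k => y L ε c t (z k))) z ∂(PP f₀ ε) +
          ENNReal.ofReal (δ / 4)) + ENNReal.ofReal (δ / 4) := by
        gcongr
        exact hε2 t ht a ham ha
    _ ≤ (μs * (∫⁻ c, G c ∂(PP f₀ ε) + ∫⁻ c, ((tupBad s (pts c) (wrong Φ ε t
          (fun c => al L ε c t) (fun c => y L ε c t) c)).card : ℝ≥0∞) ∂(PP f₀ ε)) +
          ENNReal.ofReal (δ / 4)) + ENNReal.ofReal (δ / 4) := by
        gcongr
    _ = μs * ∫⁻ c, G c ∂(PP f₀ ε) + (μs * ∫⁻ c, ((tupBad s (pts c) (wrong Φ ε t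
          (fun c => al L ε c t) (fun c => y L ε c t) c)).card : ℝ≥0∞) ∂(PP f₀ ε) +
          (ENNReal.ofReal (δ / 4) + ENNReal.ofReal (δ / 4))) := by ring
    _ ≤ μs * ∫⁻ c, G c ∂(PP f₀ ε) + ((ENNReal.ofReal (δ / 4) + ENNReal.ofReal (δ / 4)) +
          (ENNReal.ofReal (δ / 4) + ENNReal.ofReal (δ / 4))) := by
        gcongr
        exact h3.trans (add_le_add h5 le_rfl)
    _ = μs * ∫⁻ c, G c ∂(PP f₀ ε) + ENNReal.ofReal δ := by
        congr 1
        rw [← ENNReal.ofReal_add (by positivity) (by positivity),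
          ← ENNReal.ofReal_add (by positivity) (by positivity)]
        congr 1
        ring

end Vale.Agent.P119.END
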