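import Vale.Agent.P119.END.Exposed
import Vale.Agent.P119.PB.Def
import Vale.Agent.P119.RM.Def

/-!
# `PathENN` from the bound of the stopped quantities `DD`, `FF` of the block PROB
-/

open MeasureTheory Set Filter Topology
open scoped ENNReal

noncomputable section

namespace Vale.Agent.P119.END

open GC KE M RB PB AU

variable {f₀ : Ph → ℝ} {κ : ℝ} {Φ : E3 → ℝ} {T : ℝ}

theorem fworld_eq_wS (w : Finset Ph) : fworld w = wS w := rfl

theorem card_expo_le_eW (hΦ : IsPotential Φ) {ε : ℝ} (hε : 0 < ε) (L : ℕ) (t : ℝ) (c : Conf Ph) :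
    ((expo hΦ hε L t c).card : ℝ≥0∞) ≤ eW L hΦ hε (wS (pts c)) t := by
  classical
  have h1 : (expo hΦ hε L t c).card ≤ (ex L hΦ hε (wS (pts c)) t).card := by
    refine Finset.card_le_card_of_injOn src (fun z hz => ?_) (fun z _ z' _ h => M.src_injective h)
    have h2 := (mem_expo.1 (Finset.mem_coe.1 hz)).2
    rw [fworld_eq_wS] at h2
    exact Finset.mem_coe.2 (mem_ex.2 h2)
  rw [ex_eq_AX] at h1
  rw [eW_eq]
  have h3 := EN.card_le_DD (L := L) hΦ hε (wS (pts c)) t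
  calc ((expo hΦ hε L t c).card : ℝ≥0∞)
      ≤ ((EN.AX Φ ε L hΦ hε (wS (pts c)) t).card : ℝ≥0∞) := Nat.cast_le.2 h1
    _ = ENNReal.ofReal ((EN.AX Φ ε L hΦ hε (wS (pts c)) t).card : ℝ) :=
        (ENNReal.ofReal_natCast _).symm
    _ ≤ _ := ENNReal.ofReal_le_ofReal h3

/-- The functional which is watched, at the stopping time. -/
def nS (hΦ : IsPotential Φ) (η : ℕ → ℝ) (L : ℕ) (ε t : ℝ) (c : Conf Ph) : ℝ≥0∞ :=
  if hε : 0 < ε then nW L hΦ hε (wS (pts c)) (hz L hΦ hε (η L) t (wS (pts c))) else 0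

/-- **`PathENN` from the result of the block PROB.** -/
theorem pathENN_of_prob (hΦ : IsPotential Φ) (h : GoodDatum f₀ κ) {K : ℝ} (hK : 1 ≤ K)
    (p : ℕ) {cr : ℕ → ℝ} (hcr0 : ∀ L, 0 ≤ cr L) (hcr : SuperExp cr) {C₀ : ℝ} (hC₀ : 0 ≤ C₀)
    (H : ∀ᶠ L in atTop, ∀ ρ : ℝ, 0 < ρ → ∀ᶠ ε in 𝓝[>] (0 : ℝ), ∀ hε : 0 < ε, ∀ t ∈ Icc 0 T,
      DD L hΦ hε f₀ (thr K p L) t + FF L hΦ hε f₀ (thr K p L) t ≤
        ENNReal.ofReal (C₀ * (K ^ L * cr L) + ρ)) : PathENN Φ f₀ T (AL Φ) (MY Φ) := by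
  refine pathENN_of_expo hΦ h (G := nS hΦ (thr K p)) hK p hcr0 hcr hC₀ ?_ ?_
  · filter_upwards [H] with L hL ρ hρ
    filter_upwards [hL ρ hρ, self_mem_nhdsWithin] with ε hLε hε t ht
    have hε : 0 < ε := hε
    refine le_trans (le_of_eq ?_) (hLε hε t ht)
    have h1 : ∀ c, nS hΦ (thr K p) L ε t c =
        eW L hΦ hε (wS (pts c)) (hz L hΦ hε (thr K p L) t (wS (pts c))) +
          fW L hΦ hε (wS (pts c)) (hz L hΦ hε (thr K p L) t (wS (pts c))) := by
      intro c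
      unfold nS
      rw [dif_pos hε]
      rfl
    have hm : Measurable fun c : Conf Ph =>
        eW L hΦ hε (wS (pts c)) (hz L hΦ hε (thr K p L) t (wS (pts c))) :=
      RM.measurable_eW_hz RM.rs_conf measurable_const measurable_const
    simp only [h1]
    rw [lintegral_add_left hm, mul_add]
    rfl
  · refine Eventually.of_forall fun L ε hε hε1 t ht c hc => ?_
    unfold nS
    rw [dif_pos hε]
    have hη := KE.thr_pos hK p L
    rcases lt_or_ge (nW L hΦ hε (wS (pts c)) t) (ENNReal.ofReal (thr K p L * mu ε)) with h1 | h1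
    · left
      have h2 : hz L hΦ hε (thr K p L) t (wS (pts c)) = t :=
        le_antisymm (hz_le hη ht.1) (le_hz le_rfl fun r hr => (nW_mono hr.le).trans_lt h1)
      rw [h2]
      exact (card_expo_le_eW hΦ hε L t c).trans le_self_add
    · right
      exact reached_of_le hη ht.1 h1

end Vale.Agent.P119.END
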