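import Vale.Agent.P119.Stmt

/-!
# The statement of Q1 (P119)
-/

open MeasureTheory Filter Topology Set
open scoped ENNReal RealInnerProductSpace

namespace Vale.Agent.P119.Stmt

variable {E : Type} [NormedAddCommGroup E] [InnerProductSpace ℝ E] [MeasureSpace E] [BorelSpace E]
  [CompleteSpace E]

/-- `f` is a nonnegative classical probability-density solution showing that `[0, T]` is a regular
kinetic interval: it is continuous in `(t, x, v)` and, for every `v`, continuously differentiable in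
`(t, x)`.  In particular every `IsRegularSolution` (continuously differentiable in `(t, x, v)`) is
one. -/
def IsClassicalSolution (G : E → E) (γ : ℝ) (f₀ : E × E → ℝ) (T : ℝ) (f : ℝ → E × E → ℝ) :
    Prop :=
  f 0 = f₀ ∧ ContinuousOn (fun p : ℝ × E × E => f p.1 p.2) (Icc 0 T ×ˢ univ) ∧
  (∀ v : E, ContDiffOn ℝ 1 (fun p : ℝ × E => f p.1 (p.2, v)) (Icc 0 T ×ˢ univ)) ∧
  (∀ t ∈ Icc 0 T, IsDensity (f t) ∧ ∀ x v : E,
    derivWithin (fun s => f s (x, v)) (Icc 0 T) t + fderiv ℝ (fun y => f t (y, v)) x v =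
      collision G (fun w => f t (x, w)) v) ∧
  ∃ C, ∀ t ∈ Icc 0 T, ∀ x v : E, Real.exp (γ * ‖v‖ ^ 2) * f t (x, v) ≤ C

/-- Q1: for every stable potential, every datum, every regular kinetic interval `[0, T]` with its
solution `f` and every `s`, the rescaled factorial marginals of order `s` exist and converge to
`f(t)^{⊗ s}` in `L¹`, uniformly on `[0, T]`.  (Also: Newton's equations are uniquely globally
solvable from all configurations with distances `> ε`.) -/
def QuestionOne (lat : (Fin 3 → ℤ) → E) : Prop :=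
  ∀ (Φ : E → ℝ) (γ T : ℝ) (f₀ : E × E → ℝ), IsPotential Φ → IsStable Φ → 0 < γ → 0 < T →
    IsDatum lat γ f₀ →
    (∀ ε ∈ Ioo (0 : ℝ) 1, ∀ N, ∀ Z ∈ excl ε N, ∃! z, IsNewton (gradient Φ) ε Z z) ∧
    ∀ f, IsClassicalSolution (gradient Φ) γ f₀ T f → ∀ s : ℕ,
      KineticLimit (gradient Φ) f₀ T f s

end Vale.Agent.P119.Stmt
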