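import Vale.Agent.P119.END.Assemble
import Vale.Agent.P119.KE.Order

/-!
# The last step of the feedback argument: smallness of the stopped quantities implies `PathENN`

`G L ε t c` is the (weighted) number of the exposed particles and felt trees of the gas at the time
`t ∧ τ`, where `τ` is the first time at which this number is at least `η μ`.  On `{τ ≤ t}` it is at
least `η μ`, on `{t < τ}` it bounds the number of wrongly predicted particles.
-/

open MeasureTheory Set Filter Topology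
open scoped ENNReal

noncomputable section

namespace Vale.Agent.P119.END

open GC KE

variable {f₀ : Ph → ℝ} {κ : ℝ} {Φ : E3 → ℝ} {T : ℝ}

/-- Expectation of a number `W ≤ N`, where either `W ≤ G` or `G ≥ η μ`. -/
theorem lintegral_le_of_stop (h : GoodDatum f₀ κ) {ε η A : ℝ} (hε : 0 < ε) (hε1 : ε ≤ 1)
    (hη : 0 < η) (hA : 0 < A) {W : Conf Ph → ℝ≥0∞} {G : Conf Ph → ℝ≥0∞}
    (hW : ∀ c, W c ≤ (c.1 : ℝ≥0∞))
    (hS : ∀ᵐ c ∂(PP f₀ ε), W c ≤ G c ∨ ENNReal.ofReal (η * mu ε) ≤ G c) :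
    (ENNReal.ofReal (mu ε))⁻¹ * ∫⁻ c, W c ∂(PP f₀ ε) ≤
      ENNReal.ofReal (1 + A / η) * ((ENNReal.ofReal (mu ε))⁻¹ * ∫⁻ c, G c ∂(PP f₀ ε)) +
        ENNReal.ofReal (20 / A) := by
  have hμ := mu_pos hε
  set μ : ℝ≥0∞ := ENNReal.ofReal (mu ε) with hμd
  have hμ0 : μ ≠ 0 := (ENNReal.ofReal_pos.2 hμ).ne'
  have hμt : μ ≠ ∞ := ENNReal.ofReal_ne_top
  set a : ℝ≥0∞ := ENNReal.ofReal A with ha
  have ha0 : a ≠ 0 := (ENNReal.ofReal_pos.2 hA).ne'
  have hat : a ≠ ∞ := ENNReal.ofReal_ne_top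
  have hpt : ∀ᵐ c ∂(PP f₀ ε), W c ≤ ENNReal.ofReal (1 + A / η) * G c +
      (a * μ)⁻¹ * (c.1 : ℝ≥0∞) ^ 2 := by
    filter_upwards [hS] with c hc
    rcases hc with hc | hc
    · refine le_trans ?_ le_self_add
      calc W c ≤ 1 * G c := by rw [one_mul]; exact hc
        _ ≤ ENNReal.ofReal (1 + A / η) * G c := by
          gcongr
          rw [← ENNReal.ofReal_one]
          exact ENNReal.ofReal_le_ofReal (by linarith [div_pos hA hη])
    · refine (hW c).trans ?_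
      rcases le_total (c.1 : ℝ≥0∞) (a * μ) with h1 | h1
      · refine le_trans ?_ le_self_add
        calc (c.1 : ℝ≥0∞) ≤ a * μ := h1
          _ = ENNReal.ofReal (A / η) * ENNReal.ofReal (η * mu ε) := by
              rw [ha, hμd, ← ENNReal.ofReal_mul hA.le, ← ENNReal.ofReal_mul (by positivity)]
              congr 1
              field_simp
          _ ≤ ENNReal.ofReal (1 + A / η) * G c := by
              gcongr
              linarith
      · refine le_trans ?_ le_add_self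
        have hN0 : (c.1 : ℝ≥0∞) ≠ 0 := by
          intro hcon
          rw [hcon] at h1
          exact (mul_ne_zero ha0 hμ0) (le_antisymm h1 bot_le)
        have hNt : (c.1 : ℝ≥0∞) ≠ ∞ := ENNReal.natCast_ne_top _
        calc (c.1 : ℝ≥0∞) = (c.1 : ℝ≥0∞)⁻¹ * (c.1 : ℝ≥0∞) ^ 2 := by
              rw [pow_two, ← mul_assoc, ENNReal.inv_mul_cancel hN0 hNt, one_mul]
          _ ≤ (a * μ)⁻¹ * (c.1 : ℝ≥0∞) ^ 2 := by gcongr
  have hm : Measurable fun c : Conf Ph => (a * μ)⁻¹ * (c.1 : ℝ≥0∞) ^ 2 :=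
    (measurable_num.pow_const 2).const_mul _
  calc μ⁻¹ * ∫⁻ c, W c ∂(PP f₀ ε)
      ≤ μ⁻¹ * ∫⁻ c, ENNReal.ofReal (1 + A / η) * G c + (a * μ)⁻¹ * (c.1 : ℝ≥0∞) ^ 2
          ∂(PP f₀ ε) := by
        exact mul_le_mul_right (lintegral_mono_ae hpt) _
    _ = μ⁻¹ * (ENNReal.ofReal (1 + A / η) * ∫⁻ c, G c ∂(PP f₀ ε) +
          (a * μ)⁻¹ * ∫⁻ c, (c.1 : ℝ≥0∞) ^ 2 ∂(PP f₀ ε)) := by
        rw [lintegral_add_right _ hm, lintegral_const_mul' _ _ ENNReal.ofReal_ne_top,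
          lintegral_const_mul _ (measurable_num.pow_const 2)]
    _ ≤ μ⁻¹ * (ENNReal.ofReal (1 + A / η) * ∫⁻ c, G c ∂(PP f₀ ε) +
          (a * μ)⁻¹ * ((cMom 2 : ℝ≥0∞) * μ ^ 2)) := by
        gcongr
        exact lintegral_num_pow_le h hε hε1 2
    _ = ENNReal.ofReal (1 + A / η) * (μ⁻¹ * ∫⁻ c, G c ∂(PP f₀ ε)) +
          (cMom 2 : ℝ≥0∞) * a⁻¹ * ((μ⁻¹ * μ) * (μ⁻¹ * μ)) := by
        rw [ENNReal.mul_inv (Or.inl ha0) (Or.inl hat)]
        ring
    _ = _ := by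
        rw [ENNReal.inv_mul_cancel hμ0 hμt, one_mul, mul_one]
        congr 1
        have h20 : (cMom 2 : ℝ≥0∞) = ENNReal.ofReal 20 := by
          have : cMom 2 = 20 := by norm_num [cMom]
          rw [this]
          norm_num
        rw [h20, ha, ← ENNReal.ofReal_inv_of_pos hA, ← ENNReal.ofReal_mul (by norm_num),
          div_eq_mul_inv]

/-- **Smallness of the stopped quantities implies `PathENN`.** -/
theorem pathENN_of_stop (h : GoodDatum f₀ κ) {al : ℕ → ℝ → Conf Ph → ℝ → Ph → Prop}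
    {y : ℕ → ℝ → Conf Ph → ℝ → Ph → Ph} {G : ℕ → ℝ → ℝ → Conf Ph → ℝ≥0∞} {K : ℝ} (hK : 1 ≤ K)
    (p : ℕ) {cr : ℕ → ℝ} (hcr0 : ∀ L, 0 ≤ cr L) (hcr : SuperExp cr) {C₀ : ℝ} (hC₀ : 0 ≤ C₀)
    (hG : ∀ᶠ L in atTop, ∀ ρ : ℝ, 0 < ρ → ∀ᶠ ε in 𝓝[>] (0 : ℝ), ∀ t ∈ Icc 0 T,
      (ENNReal.ofReal (mu ε))⁻¹ * ∫⁻ c, G L ε t c ∂(PP f₀ ε) ≤
        ENNReal.ofReal (C₀ * (K ^ L * cr L) + ρ))
    (hS : ∀ᶠ L in atTop, ∀ᶠ ε in 𝓝[>] (0 : ℝ), ∀ t ∈ Icc 0 T, ∀ᵐ c ∂(PP f₀ ε),
      ((wrong Φ ε t (fun c => al L ε c t) (fun c => y L ε c t) c).card : ℝ≥0∞) ≤ G L ε t c ∨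
        ENNReal.ofReal (thr K p L * mu ε) ≤ G L ε t c) : PathENN Φ f₀ T al y := by
  intro δ hδ
  set A : ℝ := 40 / δ with hA
  have hA0 : 0 < A := by positivity
  have hA2 : 20 / A = δ / 2 := by rw [hA]; field_simp; norm_num
  -- the creation term
  have h1 : Tendsto (fun L => (1 + A) * C₀ * (1 ^ L * (K ^ L * cr L / thr K p L))) atTop (𝓝 0) := by
    have := (creation_div_thr hK p hcr 1 zero_le_one).const_mul ((1 + A) * C₀)
    rw [mul_zero] at this
    exact this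
  filter_upwards [hG, hS, h1.eventually (ge_mem_nhds (show (0 : ℝ) < δ / 4 by positivity)),
    eventually_ge_atTop 1] with L hGL hSL hL hL1
  have hη := thr_pos hK p L
  have hη1 : thr K p L ≤ 1 := (thr_le hK p hL1).trans (by norm_num)
  set η := thr K p L with hηd
  have hcrL := hcr0 L
  have hX : 0 ≤ C₀ * (K ^ L * cr L) := by positivity
  have h2 : (1 + A / η) * (C₀ * (K ^ L * cr L)) ≤ δ / 4 := by
    refine le_trans ?_ hL
    rw [one_pow, one_mul]
    have h3 : 1 + A / η ≤ (1 + A) / η := by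
      rw [add_div]
      gcongr
      rw [le_div_iff₀ hη]
      linarith
    calc (1 + A / η) * (C₀ * (K ^ L * cr L)) ≤ (1 + A) / η * (C₀ * (K ^ L * cr L)) := by gcongr
      _ = (1 + A) * C₀ * (K ^ L * cr L / η) := by ring
  set ρ : ℝ := δ / (4 * (1 + A / η)) with hρ
  have hρ0 : 0 < ρ := by positivity
  filter_upwards [hGL ρ hρ0, hSL, self_mem_nhdsWithin,
    Ioo_mem_nhdsGT (show (0 : ℝ) < 1 by norm_num)] with ε hGε hSε hε hε1 t ht
  have hε : 0 < ε := hε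
  have h3 := lintegral_le_of_stop h hε hε1.2.le hη hA0
    (W := fun c => ((wrong Φ ε t (fun c => al L ε c t) (fun c => y L ε c t) c).card : ℝ≥0∞))
    (G := G L ε t) (fun c => by
      refine Nat.cast_le.2 ((Finset.card_le_card (t := pts c) ?_).trans (card_pts_le c))
      exact fun z hz => (mem_wrong.1 hz).1) (hSε t ht)
  refine h3.trans ?_
  calc ENNReal.ofReal (1 + A / η) * ((ENNReal.ofReal (mu ε))⁻¹ * ∫⁻ c, G L ε t c ∂(PP f₀ ε)) +
        ENNReal.ofReal (20 / A)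
      ≤ ENNReal.ofReal (1 + A / η) * ENNReal.ofReal (C₀ * (K ^ L * cr L) + ρ) +
        ENNReal.ofReal (20 / A) := by
        gcongr
        exact hGε t ht
    _ = ENNReal.ofReal ((1 + A / η) * (C₀ * (K ^ L * cr L) + ρ) + 20 / A) := by
        rw [← ENNReal.ofReal_mul (by positivity), ← ENNReal.ofReal_add (by positivity)
          (by positivity)]
    _ ≤ ENNReal.ofReal δ := by
        refine ENNReal.ofReal_le_ofReal ?_
        have h4 : (1 + A / η) * ρ = δ / 4 := by rw [hρ]; field_simp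
        rw [mul_add, h4, hA2]
        linarith

end Vale.Agent.P119.END
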