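import Vale.Agent.P119.END.Statement
import Vale.Agent.P119.K1.Reg
import Vale.Agent.P119.GC.Lower
import Vale.Agent.P119.GC.Moments
import Vale.Agent.P119.Real.World

/-!
# The target: lower bounds for the real gas imply Q1
-/

open MeasureTheory Set Filter Topology
open scoped ENNReal

namespace Vale.Agent.P119.END

open GC

/-- Lower bounds of the `s`-particle functionals of the real gas, in `ENNReal` form. -/
def LowerENN (Φ : E3 → ℝ) (f₀ : Ph → ℝ) (T : ℝ) (f : ℝ → Ph → ℝ) (s : ℕ) : Prop :=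
  ∀ δ : ℝ, 0 < δ → ∀ᶠ ε in 𝓝[>] (0 : ℝ), ∀ t ∈ Icc 0 T, ∀ a : (Fin s → Ph) → ℝ≥0∞,
    Measurable a → (∀ z, a z ≤ 1) →
      ∫⁻ z, a z * ∏ k, ENNReal.ofReal (f t (z k)) ≤
        (ENNReal.ofReal (mu ε ^ s))⁻¹ *
          ∫⁻ c, ∑ z ∈ tup s (pts c), a (fun k => RW.R Φ ε (pts c) t (z k)) ∂(PP f₀ ε) +
        ENNReal.ofReal δ

variable {f₀ : Ph → ℝ} {κ : ℝ} {Φ : E3 → ℝ} {T : ℝ} {s : ℕ} {f : ℝ → Ph → ℝ}

/-- A measurable version of the `s`-particle functional of the real gas. -/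
theorem exists_meas_functional (hΦ : IsPotential Φ) {ε t : ℝ} (hε : 0 < ε) (ht : 0 ≤ t)
    {a : (Fin s → Ph) → ℝ≥0∞} (ha : Measurable a) :
    ∃ G : Conf Ph → ℝ≥0∞, Measurable G ∧ ∀ N (Z : Fin N → Ph), Z ∈ excl ε N →
      G ⟨N, Z⟩ = ∑ σ : Fin s ↪ Fin N, a (fun k => flow Φ ε t Z (σ k)) ∧
      G ⟨N, Z⟩ = ∑ z ∈ tup s (pts ⟨N, Z⟩), a (fun k => RW.R Φ ε (pts ⟨N, Z⟩) t (z k)) := by
  classical
  choose S hSm hSe hSv hSa using fun N => flow_on_excl hΦ hε ht N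
  refine ⟨fun c => ∑ σ : Fin s ↪ Fin c.1, a (fun k => S c.1 c.2 (σ k)), ?_, fun N Z hZ => ?_⟩
  · rw [measurable_conf]
    intro N
    change Measurable fun Z : Fin N → Ph => ∑ σ : Fin s ↪ Fin N, a (fun k => S N Z (σ k))
    refine Finset.measurable_sum _ fun σ _ => ha.comp ?_
    rw [measurable_pi_iff]
    exact fun k => (measurable_pi_apply (σ k)).comp (hSm N)
  · have h1 : ∑ σ : Fin s ↪ Fin N, a (fun k => S N Z (σ k)) =
        ∑ σ : Fin s ↪ Fin N, a (fun k => flow Φ ε t Z (σ k)) := by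
      rw [hSe N Z hZ]
    refine ⟨h1, ?_⟩
    change ∑ σ : Fin s ↪ Fin N, a (fun k => S N Z (σ k)) = _
    rw [h1, sum_tup (PW.injective (Cx_irrefl hε.le) (pw_Cx.2 hZ))]
    refine Finset.sum_congr rfl fun σ _ => ?_
    congr 1
    funext k
    have h2 := RW.R_image hΦ hε hZ t (σ k)
    have h3 : ∀ d d' : DecidableEq Ph, @Finset.image _ _ d Z Finset.univ =
      @Finset.image _ _ d' Z Finset.univ := fun d d' => by
        rw [Subsingleton.elim d d']
    rw [← h2]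
    change RW.R Φ ε _ t _ = RW.R Φ ε _ t _
    congr 1
    exact h3 _ _

/-- Lower bounds of the real gas imply the kinetic limit. -/
theorem kineticLimit_of_lowerENN (hΦ : IsPotential Φ) (h : GoodDatum f₀ κ)
    (hf : ∀ t ∈ Icc 0 T, Integrable (f t) ∧ (∀ z, 0 ≤ f t z) ∧ ∫ z, f t z = 1)
    (hlow : LowerENN Φ f₀ T f s) : KineticLimit Φ f₀ T f s := by
  refine kineticLimit_of_lower h hf (fun ε hε t ht => goodFlow_of hΦ hε.1 ht.1) fun δ hδ => ?_
  filter_upwards [hlow δ hδ, self_mem_nhdsWithin] with ε hl hε t ht a ha h0 h1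
  have hε : 0 < ε := hε
  have hμ : 0 < mu ε ^ s := pow_pos (mu_pos hε) s
  have hlaw := isProbabilityMeasure_law h.nonneg h.integrable h.integral_eq
  obtain ⟨G, hG, hGe⟩ := exists_meas_functional (s := s) hΦ hε ht.1
    (a := fun z => ENNReal.ofReal (a z)) ha.ennreal_ofReal
  -- the functional of the problem
  have hGle : ∀ᵐ c ∂(PP f₀ ε), G c ≤ ((tup s (pts c)).card : ℝ≥0∞) := by
    filter_upwards [ae_excl f₀ ε] with c hc
    obtain ⟨N, Z⟩ := c
    rw [(hGe N Z hc).2, Finset.card_eq_sum_ones, Nat.cast_sum]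
    refine Finset.sum_le_sum fun z _ => ?_
    rw [Nat.cast_one]
    exact ENNReal.ofReal_le_one.2 (h1 _)
  have hfin : ∫⁻ c, G c ∂(PP f₀ ε) ≠ ∞ :=
    ne_top_of_le_ne_top (ENNReal.pow_ne_top ENNReal.ofReal_ne_top)
      ((lintegral_mono_ae hGle).trans (lintegral_card_tup_le h hε.le s))
  have hexp := expect_eq_lintegral (g := fun N Z => ∑ σ : Fin s ↪ Fin N,
    a (fun k => flow Φ ε t Z (σ k))) h hε hG (fun N Z hZ => ⟨by
      rw [(hGe N Z hZ).1, ENNReal.ofReal_sum_of_nonneg fun σ _ => h0 _],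
      Finset.sum_nonneg fun σ _ => h0 _⟩) hfin
  have hRG : ∫⁻ c, ∑ z ∈ tup s (pts c), ENNReal.ofReal (a (fun k => RW.R Φ ε (pts c) t (z k)))
      ∂(PP f₀ ε) = ∫⁻ c, G c ∂(PP f₀ ε) := by
    refine lintegral_congr_ae ?_
    filter_upwards [ae_excl f₀ ε] with c hc
    obtain ⟨N, Z⟩ := c
    exact (hGe N Z hc).2.symm
  -- the left-hand side
  have hprod : Integrable (fun z : Fin s → Ph => ∏ k, f t (z k)) :=
    Integrable.fintype_prod (fun _ => (hf t ht).1)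
  have hprod0 : ∀ z : Fin s → Ph, 0 ≤ ∏ k, f t (z k) := fun z =>
    Finset.prod_nonneg fun k _ => (hf t ht).2.1 _
  have hap : Integrable fun z : Fin s → Ph => a z * ∏ k, f t (z k) :=
    hprod.bdd_mul (c := 1) ha.aestronglyMeasurable (Eventually.of_forall fun z => by
      rw [Real.norm_eq_abs, abs_of_nonneg (h0 z)]
      exact h1 z)
  have hL : ENNReal.ofReal (∫ z, a z * ∏ k, f t (z k)) =
      ∫⁻ z, ENNReal.ofReal (a z) * ∏ k, ENNReal.ofReal (f t (z k)) := by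
    rw [ofReal_integral_eq_lintegral_ofReal hap (Eventually.of_forall fun z =>
      mul_nonneg (h0 z) (hprod0 z))]
    refine lintegral_congr fun z => ?_
    rw [ENNReal.ofReal_mul (h0 z), ENNReal.ofReal_prod_of_nonneg fun k _ => (hf t ht).2.1 _]
  have h5 := hl t ht (fun z => ENNReal.ofReal (a z)) ha.ennreal_ofReal
    (fun z => ENNReal.ofReal_le_one.2 (h1 z))
  rw [← hL, hRG, ← ENNReal.ofReal_inv_of_pos hμ] at h5
  rw [hexp]
  have h6 : ENNReal.ofReal ((mu ε ^ s)⁻¹) * ∫⁻ c, G c ∂(PP f₀ ε) + ENNReal.ofReal δ =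
      ENNReal.ofReal ((mu ε ^ s)⁻¹ * (∫⁻ c, G c ∂(PP f₀ ε)).toReal + δ) := by
    rw [ENNReal.ofReal_add (by positivity) hδ.le, ENNReal.ofReal_mul (by positivity),
      ENNReal.ofReal_toReal hfin]
  rw [h6] at h5
  exact (ENNReal.ofReal_le_ofReal_iff (by positivity)).1 h5

/-- The two forms of a classical solution. -/
theorem regSol_of {Φ : E3 → ℝ} {γ : ℝ} {f₀ : Ph → ℝ} {T : ℝ} {f : ℝ → Ph → ℝ}
    (h : Stmt.IsClassicalSolution (gradient Φ) γ f₀ T f) : RegSol Φ (γ / 2) f₀ T f := by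
  obtain ⟨h0, h1, h2, h3, h4⟩ := h
  refine ⟨h0, fun t ht => (h3 t ht).1.1, fun t ht => (h3 t ht).1.2, h1, h2,
    fun t ht x v => ?_, ?_⟩
  · rw [Bridge.inner_gradient_eq', ← Bridge.collision_eq]
    exact (h3 t ht).2 x v
  · rw [show 2 * (γ / 2) = γ by ring]
    exact h4

/-- A solution which is `C¹` in all variables is a classical solution. -/
theorem isClassicalSolution_of {G : E3 → E3} {γ : ℝ} {f₀ : Ph → ℝ} {T : ℝ} {f : ℝ → Ph → ℝ}
    (h : Stmt.IsRegularSolution G γ f₀ T f) : Stmt.IsClassicalSolution G γ f₀ T f := by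
  obtain ⟨h0, h1, h3, h4⟩ := h
  refine ⟨h0, h1.continuousOn, fun v => ?_, h3, h4⟩
  have h5 : ContDiffOn ℝ 1 (fun p : ℝ × E3 => ((p.1, (p.2, v)) : ℝ × Ph))
      (Icc 0 T ×ˢ univ) := by
    fun_prop
  exact h1.comp h5 fun p hp => ⟨hp.1, mem_univ _⟩

/-- Lower bounds of the real gas for all data and potentials imply Q1. -/
theorem questionOne_of (H : ∀ (Φ : E3 → ℝ) (β T : ℝ) (f₀ : Ph → ℝ) (f : ℝ → Ph → ℝ),
    IsPotential Φ → IsStable Φ → 0 < β → 0 < T → IsDatum β f₀ → RegSol Φ β f₀ T f →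
      ∀ s : ℕ, LowerENN Φ f₀ T f s) :
    Stmt.QuestionOne (E := E3) Bridge.lat := by
  intro Φ γ T f₀ h1 h2 hγ hT h4
  have hΦ := Bridge.isPotential_of h1
  have hβ : 0 < γ / 2 := by positivity
  have hd := Bridge.isDatum_of h4
  refine ⟨fun ε hε N Z hZ => Bridge.existsUnique hΦ hε.1 hZ, fun f hf s => ?_⟩
  have hf' := regSol_of hf
  refine Bridge.kineticLimit_of hΦ ?_
  obtain ⟨C, hC⟩ := hf'.bound
  have h0 : (0 : ℝ) ∈ Icc 0 T := ⟨le_rfl, hT.le⟩
  have hbd : ∀ x v : E3, Real.exp (2 * (γ / 2) * ‖v‖ ^ 2) * f₀ (x, v) ≤ max C 0 := by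
    intro x v
    have := hC 0 h0 x v
    rw [hf'.init] at this
    exact this.trans (le_max_left _ _)
  have hgood : GoodDatum f₀ (kap (γ / 2) (max C 0)) := by
    have := goodDatum_free hβ hd (le_max_right C 0) hbd 0
    have h0' : free f₀ 0 = f₀ := by
      funext z
      simp [free]
    rwa [h0'] at this
  exact kineticLimit_of_lowerENN hΦ hgood
    (fun t ht => ⟨(hf'.integral_eq t ht).1, hf'.nonneg t ht, (hf'.integral_eq t ht).2⟩)
    (H Φ (γ / 2) T f₀ f hΦ h2 hβ hT hd hf' s)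

end Vale.Agent.P119.END
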